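import Vale.Agent.P141.H922.MovR
import Vale.Agent.P141.H43.MidR
import Vale.Agent.P141.PL.H571.Doob

/-!
# P141, line (A): the maximal function of a martingale with monotone weights

`V` a vector martingale on the dyadic cells of `x`, `W k` weights with `W k ≤ W (k + 1)` and cell
sums at most `e * 2 ^ k`.

* `mxV` : a function with `W k x * |V k (cell of x)|² ≤ mxV x` for every `k ≤ n`;
* `sum_mxV` : `∑ mxV ≤ 4 e ∑ |V 0|²`.
-/

namespace Vale.Agent.P141.H224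

open Finset Matrix
open Vale.Agent.P141.PL (iv ix mem_iv ix_ix)
open Vale.Agent.P141.PL.H571 (dav S S_nonneg S_mono S_congr dav_le_S doob_block dav_nonneg)
open Vale.Agent.P141.H43 (nsq nsq_nonneg)

noncomputable section

theorem iv_Ico (k : ℕ) (m : ℤ) : iv k m = Ico (2 ^ k * m) (2 ^ k * (m + 1)) := by
  unfold iv
  rw [mul_add, mul_one]

/-! ### Scalar part -/

/-- square of the maximal function of the scales `k, ..., n` -/
def Nx (g : ℤ → ℝ) (n k : ℕ) (x : ℤ) : ℝ := if k ≤ n then S g n (n - k) x ^ 2 else 0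

theorem Nx_nonneg (g : ℤ → ℝ) (n k : ℕ) (x : ℤ) : 0 ≤ Nx g n k x := by
  unfold Nx
  split_ifs
  · positivity
  · exact le_rfl

variable {g : ℤ → ℝ} {n : ℕ}

theorem Nx_anti (hg : ∀ x, 0 ≤ g x) (k : ℕ) (x : ℤ) : Nx g n (k + 1) x ≤ Nx g n k x := by
  by_cases h : k + 1 ≤ n
  · unfold Nx
    rw [if_pos h, if_pos (by omega)]
    exact pow_le_pow_left₀ (S_nonneg hg n _ x) (S_mono g n (by omega) x) 2
  · have : Nx g n (k + 1) x = 0 := by
      unfold Nx
      rw [if_neg h]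
    rw [this]
    exact Nx_nonneg g n k x

theorem Nx_congr {k : ℕ} {x y : ℤ} (h : ix k x = ix k y) : Nx g n k x = Nx g n k y := by
  unfold Nx
  split_ifs with hk
  · congr 1
    refine S_congr g n (n - k) ?_
    rw [Nat.sub_sub_self hk]
    exact h
  · rfl

/-- the Abel sum which dominates all the weighted squares -/
def mxD (W : ℕ → ℤ → ℝ) (g : ℤ → ℝ) (n : ℕ) (x : ℤ) : ℝ :=
  ∑ j ∈ range (n + 1), W j x * (Nx g n j x - Nx g n (j + 1) x)

variable {W : ℕ → ℤ → ℝ} {e : ℝ}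

theorem W_le (hWm : ∀ k < n, ∀ x, W k x ≤ W (k + 1) x) {k j : ℕ} (h : k ≤ j) (hj : j ≤ n) (x : ℤ) :
    W k x ≤ W j x := by
  induction j, h using Nat.le_induction with
  | base => exact le_rfl
  | succ j _ ih => exact (ih (by omega)).trans (hWm j (by omega) x)

/-- every weighted square is below the Abel sum -/
theorem le_mxD (hg : ∀ x, 0 ≤ g x) (hW0 : ∀ k x, 0 ≤ W k x)
    (hWm : ∀ k < n, ∀ x, W k x ≤ W (k + 1) x) {k : ℕ} (hk : k ≤ n) (x : ℤ) :
    W k x * dav g k (ix k x) ^ 2 ≤ mxD W g n x := by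
  have h1 : dav g k (ix k x) ≤ S g n (n - k) x := by
    have h := dav_le_S g n (n - k) x
    rw [Nat.sub_sub_self hk] at h
    exact h
  have h2 : dav g k (ix k x) ^ 2 ≤ Nx g n k x := by
    unfold Nx
    rw [if_pos hk]
    exact pow_le_pow_left₀ (dav_nonneg hg k _) h1 2
  have h3 : Nx g n k x = ∑ j ∈ Ico k (n + 1), (Nx g n j x - Nx g n (j + 1) x) := by
    rw [sum_Ico_eq_sum_range]
    have h := Finset.sum_range_sub' (fun i => Nx g n (k + i) x) (n + 1 - k)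
    have e1 : Nx g n (k + (n + 1 - k)) x = 0 := by
      unfold Nx
      rw [if_neg (by omega)]
    rw [e1, sub_zero, add_zero] at h
    rw [← h]
    refine sum_congr rfl fun i _ => ?_
    rw [add_assoc]
  calc W k x * dav g k (ix k x) ^ 2 ≤ W k x * Nx g n k x :=
        mul_le_mul_of_nonneg_left h2 (hW0 k x)
    _ = ∑ j ∈ Ico k (n + 1), W k x * (Nx g n j x - Nx g n (j + 1) x) := by rw [h3, mul_sum]
    _ ≤ ∑ j ∈ Ico k (n + 1), W j x * (Nx g n j x - Nx g n (j + 1) x) := by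
        refine sum_le_sum fun j hj => ?_
        rw [mem_Ico] at hj
        exact mul_le_mul_of_nonneg_right (W_le hWm hj.1 (by omega) x)
          (sub_nonneg.2 (Nx_anti hg j x))
    _ ≤ mxD W g n x := by
        unfold mxD
        refine sum_le_sum_of_subset_of_nonneg (fun j hj => ?_) fun j _ _ =>
          mul_nonneg (hW0 j x) (sub_nonneg.2 (Nx_anti hg j x))
        rw [mem_Ico] at hj
        exact mem_range.2 hj.2

theorem mxD_nonneg (hg : ∀ x, 0 ≤ g x) (hW0 : ∀ k x, 0 ≤ W k x) (x : ℤ) : 0 ≤ mxD W g n x :=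
  sum_nonneg fun j _ => mul_nonneg (hW0 j x) (sub_nonneg.2 (Nx_anti hg j x))

/-- a weight against a function of the cells -/
theorem sum_W_cell {k : ℕ} (hk : k ≤ n) (hW : ∀ j, ∑ x ∈ iv k j, W k x ≤ e * 2 ^ k) (T : ℤ)
    {D : ℤ → ℝ} (hD0 : ∀ x, 0 ≤ D x) (hD : ∀ x y, ix k x = ix k y → D x = D y) :
    ∑ x ∈ iv n T, W k x * D x ≤ e * ∑ x ∈ iv n T, D x := by
  rw [← H922.iv_iv hk T (fun x => W k x * D x), ← H922.iv_iv hk T D, mul_sum]
  refine sum_le_sum fun a _ => ?_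
  have e1 : ∀ x ∈ iv k a, D x = D (2 ^ k * a) := by
    intro x hx
    refine hD _ _ ?_
    rw [mem_iv.1 hx]
    symm
    rw [← mem_iv]
    unfold iv
    rw [mem_Ico]
    have : (0 : ℤ) < 2 ^ k := by positivity
    exact ⟨le_rfl, by linarith⟩
  have e2 : ∑ x ∈ iv k a, W k x * D x = (∑ x ∈ iv k a, W k x) * D (2 ^ k * a) := by
    rw [sum_mul]
    exact sum_congr rfl fun x hx => by rw [e1 x hx]
  have e3 : ∑ x ∈ iv k a, D x = 2 ^ k * D (2 ^ k * a) := by
    rw [sum_congr rfl e1, sum_const, PL.card_iv, nsmul_eq_mul]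
    push_cast
    ring
  rw [e2, e3]
  have h := mul_le_mul_of_nonneg_right (hW a) (hD0 (2 ^ k * a))
  linarith

/-- **Weighted maximal inequality**, scalar form. -/
theorem sum_mxD (hg : ∀ x, 0 ≤ g x) (he : 0 ≤ e)
    (hW : ∀ k ≤ n, ∀ j, ∑ x ∈ iv k j, W k x ≤ e * 2 ^ k) (T : ℤ) :
    ∑ x ∈ iv n T, mxD W g n x ≤ 4 * e * ∑ x ∈ iv n T, g x ^ 2 := by
  unfold mxD
  rw [sum_comm]
  have h1 : ∀ j ∈ range (n + 1), ∑ x ∈ iv n T, W j x * (Nx g n j x - Nx g n (j + 1) x) ≤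
      e * ∑ x ∈ iv n T, (Nx g n j x - Nx g n (j + 1) x) := by
    intro j hj
    have hjn : j ≤ n := by
      have := mem_range.1 hj
      omega
    refine sum_W_cell hjn (hW j hjn) T (fun x => sub_nonneg.2 (Nx_anti hg j x)) ?_
    intro x y h
    rw [Nx_congr h, Nx_congr (k := j + 1)]
    rw [← ix_ix, ← ix_ix, h]
  refine (sum_le_sum h1).trans ?_
  rw [← mul_sum, sum_comm]
  have h2 : ∀ x, ∑ j ∈ range (n + 1), (Nx g n j x - Nx g n (j + 1) x) = S g n n x ^ 2 := by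
    intro x
    rw [Finset.sum_range_sub' (fun i => Nx g n i x)]
    have e1 : Nx g n (n + 1) x = 0 := by
      unfold Nx
      rw [if_neg (by omega)]
    rw [e1, sub_zero]
    unfold Nx
    rw [if_pos (Nat.zero_le n), Nat.sub_zero]
  have h3 : ∑ x ∈ iv n T, S g n n x ^ 2 ≤ 4 * ∑ x ∈ iv n T, g x ^ 2 := by
    rw [iv_Ico]
    have h := doob_block hg (by norm_num : (1 : ℝ) < 2) n T (T + 1)
    have e2 : ((2 : ℝ) / (2 - 1)) ^ (2 : ℝ) = 4 := by norm_num
    rw [e2] at h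
    simp only [Real.rpow_two] at h
    exact h
  rw [sum_congr rfl fun x _ => h2 x]
  have h4 := mul_le_mul_of_nonneg_left h3 he
  linarith

/-! ### Vector part -/

variable {ι : Type*} [Fintype ι]

theorem dot_le_sqrt (a b : ι → ℝ) : a ⬝ᵥ b ≤ √(nsq a) * √(nsq b) := by
  rw [← Real.sqrt_mul (nsq_nonneg a)]
  refine Real.le_sqrt_of_sq_le ?_
  have h := sum_mul_sq_le_sq_mul_sq univ a b
  unfold nsq dotProduct
  simpa only [pow_two] using h

theorem sqrt_nsq_add (a b : ι → ℝ) : √(nsq (a + b)) ≤ √(nsq a) + √(nsq b) := by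
  rw [Real.sqrt_le_iff]
  refine ⟨by positivity, ?_⟩
  rw [H43.nsq_add]
  have h := dot_le_sqrt a b
  have h1 := Real.sq_sqrt (nsq_nonneg a)
  have h2 := Real.sq_sqrt (nsq_nonneg b)
  nlinarith

theorem sqrt_nsq_smul (c : ℝ) (hc : 0 ≤ c) (a : ι → ℝ) : √(nsq (c • a)) = c * √(nsq a) := by
  have e1 : nsq (c • a) = c ^ 2 * nsq a := by
    unfold nsq
    rw [smul_dotProduct, dotProduct_smul, smul_eq_mul, smul_eq_mul]
    ring
  rw [e1, Real.sqrt_mul (sq_nonneg c), Real.sqrt_sq hc]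

theorem dav_zero (g : ℤ → ℝ) (m : ℤ) : dav g 0 m = g m := by
  unfold dav
  have : Ico ((2 : ℤ) ^ 0 * m) (2 ^ 0 * (m + 1)) = {m} := by
    ext x
    rw [mem_Ico, mem_singleton]
    constructor
    · rintro ⟨h1, h2⟩
      norm_num at h1 h2
      omega
    · rintro rfl
      norm_num
  rw [this, sum_singleton, pow_zero, div_one]

theorem dav_succ (g : ℤ → ℝ) (k : ℕ) (m : ℤ) :
    dav g (k + 1) m = (1 / 2) * (dav g k (2 * m) + dav g k (2 * m + 1)) := by
  unfold dav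
  rw [← iv_Ico, ← iv_Ico, ← iv_Ico, H922.iv_succ_sum, pow_succ]
  field_simp

/-- a vector martingale is below the averages of its end values -/
theorem mart_le_dav {V : ℕ → ℤ → ι → ℝ} (hV : H483.Mart n V) {k : ℕ} (hk : k ≤ n) (m : ℤ) :
    √(nsq (V k m)) ≤ dav (fun x => √(nsq (V 0 x))) k m := by
  induction k generalizing m with
  | zero => rw [dav_zero]
  | succ k ih =>
    rw [dav_succ, hV k (by omega) m, sqrt_nsq_smul _ (by norm_num)]
    have h1 := ih (by omega) (2 * m)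
    have h2 := ih (by omega) (2 * m + 1)
    have h3 := sqrt_nsq_add (V k (2 * m)) (V k (2 * m + 1))
    linarith

/-- the dominating function of a vector martingale -/
def mxV (W : ℕ → ℤ → ℝ) (V : ℕ → ℤ → ι → ℝ) (n : ℕ) (x : ℤ) : ℝ :=
  mxD W (fun x => √(nsq (V 0 x))) n x

theorem mxV_nonneg (hW0 : ∀ k x, 0 ≤ W k x) (V : ℕ → ℤ → ι → ℝ) (x : ℤ) : 0 ≤ mxV W V n x :=
  mxD_nonneg (fun _ => Real.sqrt_nonneg _) hW0 x

/-- every weighted square of the martingale is below `mxV` -/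
theorem le_mxV {V : ℕ → ℤ → ι → ℝ} (hV : H483.Mart n V) (hW0 : ∀ k x, 0 ≤ W k x)
    (hWm : ∀ k < n, ∀ x, W k x ≤ W (k + 1) x) {k : ℕ} (hk : k ≤ n) (x : ℤ) :
    W k x * nsq (V k (ix k x)) ≤ mxV W V n x := by
  refine le_trans ?_ (le_mxD (g := fun x => √(nsq (V 0 x))) (fun _ => Real.sqrt_nonneg _) hW0
    hWm hk x)
  refine mul_le_mul_of_nonneg_left ?_ (hW0 k x)
  have h := mart_le_dav hV hk (ix k x)
  have h1 := Real.sq_sqrt (nsq_nonneg (V k (ix k x)))
  rw [← h1]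
  exact pow_le_pow_left₀ (Real.sqrt_nonneg _) h 2

/-- **Weighted maximal inequality** of a vector martingale. -/
theorem sum_mxV (V : ℕ → ℤ → ι → ℝ) (he : 0 ≤ e)
    (hW : ∀ k ≤ n, ∀ j, ∑ x ∈ iv k j, W k x ≤ e * 2 ^ k) (T : ℤ) :
    ∑ x ∈ iv n T, mxV W V n x ≤ 4 * e * ∑ x ∈ iv n T, nsq (V 0 x) := by
  refine (sum_mxD (g := fun x => √(nsq (V 0 x))) (fun _ => Real.sqrt_nonneg _) he hW T).trans
    (le_of_eq ?_)
  congr 1
  exact sum_congr rfl fun x _ => Real.sq_sqrt (nsq_nonneg _)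

end

end Vale.Agent.P141.H224
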