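import Vale.Agent.P141.H876.ShiftA
import Vale.Agent.P141.H224.DoobW

/-!
# P141, line (A): the moving slot on a shifted grid, all scales at one point `x₀`

Letters of `H841.Lay`, `H876.ShiftA`.  `W k x₀ y` monotone in `k` (killed weights).

* `eR` : a number at every `x₀` and `y` with `W k |Rs k v y|² ≤ eR` for every `k ≤ n`;
* `sum_eR` : its sum over `x₀` and `y` is at most `e (8 ∑ ∑ |Rm 0 v|² + 2 S1)`;
* `sum_eR_Q` : the same in the letters of `S1`.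
-/

namespace Vale.Agent.P141.H224

open Finset Matrix
open Vale.Agent.P141.PL (iv ix hs mem_iv ix_ix card_iv)
open Vale.Agent.P141.H922 (ck)
open Vale.Agent.P141.H43 (nsq nsq_nonneg)
open Vale.Agent.P141.H841 (Lm Rm Rs nsq_add_le)
open Vale.Agent.P141.H876 (En wn S1)

noncomputable section

variable {ι : Type*} [Fintype ι]

variable {Mx : ℕ → ℤ → Matrix ι ι ℝ} {o x1 T M3 : ℤ} {n : ℕ} {s : ℕ → ℤ → ℤ → ℝ}

theorem ix_mono {j k : ℕ} (h : j ≤ k) {x y : ℤ} (e : ix j x = ix j y) : ix k x = ix k y := by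
  have h1 : ∀ z : ℤ, ix k z = ix (k - j) (ix j z) := fun z => by
    rw [ix_ix, Nat.add_sub_cancel' h]
  rw [h1, h1, e]

theorem hs_of_ix {k : ℕ} {x y : ℤ} (e : ix k x = ix k y) : hs (k + 1) x = hs (k + 1) y := by
  unfold hs
  rw [Nat.add_sub_cancel, e]

theorem ix_pow_mul (k : ℕ) (m : ℤ) : ix k (2 ^ k * m) = m := by
  rw [← mem_iv]
  unfold iv
  rw [mem_Ico]
  have : (0 : ℤ) < 2 ^ k := by positivity
  exact ⟨le_rfl, by linarith⟩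

omit [Fintype ι] in
/-- the slot of time `j` depends on the cell of scale `j` of `x₀` only -/
theorem Rm_ix {j : ℕ} {x0 y0 : ℤ} (p : ℤ) (h : ix j x0 = ix j y0) :
    Rm Mx o x1 s n j x0 p = Rm Mx o x1 s n j y0 p := by
  unfold Rm
  refine sum_congr rfl fun i hi => ?_
  have hi' := (mem_Ico.1 hi).1
  have a := ix_mono hi' h
  unfold Lm
  rw [hs_of_ix a, ix_mono (Nat.le_succ i) a]

omit [Fintype ι] in
theorem Rm_step {j : ℕ} (hj : j < n) (x0 p : ℤ) :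
    Rm Mx o x1 s n j x0 p = Lm Mx o x1 s (j + 1) x0 p + Rm Mx o x1 s n (j + 1) x0 p := by
  unfold Rm
  rw [sum_eq_sum_Ico_succ_bot hj]

/-- the slot is a martingale in `x₀` -/
theorem Rm_mart0 (p : ℤ) (w : ι → ℝ) :
    H483.Mart n fun j m => Rm Mx o x1 s n j (2 ^ j * m) p *ᵥ w := by
  intro j hj m
  beta_reduce
  have a2 : ix (j + 1) ((2 : ℤ) ^ j * (2 * m)) = m := by
    rw [show (2 : ℤ) ^ j * (2 * m) = 2 ^ (j + 1) * m by ring, ix_pow_mul]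
  have a3 : ix (j + 1) ((2 : ℤ) ^ j * (2 * m + 1)) = m := by
    rw [← ix_ix, ix_pow_mul]
    unfold ix
    omega
  have h1 : hs (j + 1) ((2 : ℤ) ^ j * (2 * m)) = 1 := by
    unfold hs
    rw [Nat.add_sub_cancel, ix_pow_mul, if_pos (by omega)]
  have h2 : hs (j + 1) ((2 : ℤ) ^ j * (2 * m + 1)) = -1 := by
    unfold hs
    rw [Nat.add_sub_cancel, ix_pow_mul, if_neg (by omega)]
  have b2 := Rm_ix (Mx := Mx) (o := o) (x1 := x1) (s := s) (n := n) (j := j + 1)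
    (x0 := 2 ^ j * (2 * m)) (y0 := 2 ^ (j + 1) * m) p (by rw [a2, ix_pow_mul])
  have b3 := Rm_ix (Mx := Mx) (o := o) (x1 := x1) (s := s) (n := n) (j := j + 1)
    (x0 := 2 ^ j * (2 * m + 1)) (y0 := 2 ^ (j + 1) * m) p (by rw [a3, ix_pow_mul])
  have c : Lm Mx o x1 s (j + 1) (2 ^ j * (2 * m + 1)) p =
      -Lm Mx o x1 s (j + 1) (2 ^ j * (2 * m)) p := by
    unfold Lm
    rw [a2, a3, h1, h2, ← neg_smul]
    congr 1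
    ring
  rw [Rm_step hj (2 ^ j * (2 * m)), Rm_step hj (2 ^ j * (2 * m + 1)), b2, b3, c]
  rw [add_mulVec, add_mulVec, neg_mulVec]
  module

/-- the vector path of the slot at the point `y` -/
def vR (Mx : ℕ → ℤ → Matrix ι ι ℝ) (o x1 : ℤ) (s : ℕ → ℤ → ℤ → ℝ) (n : ℕ) (y : ℤ) (w : ι → ℝ)
    (j : ℕ) (m : ℤ) : ι → ℝ :=
  Rm Mx o x1 s n j (2 ^ j * m) y *ᵥ w

theorem vR_ix (y : ℤ) (w : ι → ℝ) (k : ℕ) (x0 : ℤ) :
    vR Mx o x1 s n y w k (ix k x0) = Rm Mx o x1 s n k x0 y *ᵥ w := by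
  unfold vR
  rw [Rm_ix (y0 := x0) y (by rw [ix_pow_mul])]

/-- **The number at `x₀`** which dominates the slot on the standard grid at every scale. -/
def mR (Mx : ℕ → ℤ → Matrix ι ι ℝ) (o x1 : ℤ) (s : ℕ → ℤ → ℤ → ℝ) (n : ℕ) (W : ℕ → ℤ → ℝ)
    (y : ℤ) (w : ι → ℝ) (x0 : ℤ) : ℝ :=
  mxV W (vR Mx o x1 s n y w) n x0

theorem mR_nonneg {W : ℕ → ℤ → ℝ} (hW0 : ∀ k x, 0 ≤ W k x) (y : ℤ) (w : ι → ℝ) (x0 : ℤ) :
    0 ≤ mR Mx o x1 s n W y w x0 := mxV_nonneg hW0 _ x0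

/-- standard grid, every scale -/
theorem le_mR {W : ℕ → ℤ → ℝ} (hW0 : ∀ k x, 0 ≤ W k x)
    (hWm : ∀ k < n, ∀ x, W k x ≤ W (k + 1) x) {k : ℕ} (hk : k ≤ n) (x0 y : ℤ) (w : ι → ℝ) :
    W k x0 * nsq (Rm Mx o x1 s n k x0 y *ᵥ w) ≤ mR Mx o x1 s n W y w x0 := by
  rw [← vR_ix]
  exact le_mxV (Rm_mart0 y w) hW0 hWm hk x0

/-- standard grid, the sum over `x₀` -/
theorem sum_mR {W : ℕ → ℤ → ℝ} {e : ℝ} (he : 0 ≤ e)
    (hW : ∀ k ≤ n, ∀ j, ∑ x ∈ iv k j, W k x ≤ e * 2 ^ k) (y : ℤ) (w : ι → ℝ) :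
    ∑ x0 ∈ iv n T, mR Mx o x1 s n W y w x0 ≤
      4 * e * ∑ x0 ∈ iv n T, nsq (Rm Mx o x1 s n 0 x0 y *ᵥ w) := by
  refine (sum_mxV _ he hW T).trans (le_of_eq ?_)
  congr 1
  refine sum_congr rfl fun x0 _ => ?_
  have e1 : x0 = ix 0 x0 := by
    unfold ix
    norm_num
  have h := vR_ix (Mx := Mx) (o := o) (x1 := x1) (s := s) (n := n) y w 0 x0
  rw [← e1] at h
  rw [h]

/-- **The number at `x₀`, `y`** which dominates the slot on the shifted grid at every scale. -/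
def eR (Mx : ℕ → ℤ → Matrix ι ι ℝ) (o x1 : ℤ) (s : ℕ → ℤ → ℤ → ℝ) (n : ℕ) (W : ℕ → ℤ → ℤ → ℝ)
    (sh y : ℤ) (w : ι → ℝ) (x0 : ℤ) : ℝ :=
  2 * mR Mx o x1 s n (fun k x => W k x y) y w x0 +
    2 * ∑ k ∈ range (n + 1), W k x0 y *
      nsq ((Rs Mx o x1 s n sh k x0 (ix k (y - sh)) - Rm Mx o x1 s n k x0 y) *ᵥ w)

theorem eR_nonneg {W : ℕ → ℤ → ℤ → ℝ} (hW0 : ∀ k x0 y, 0 ≤ W k x0 y) (sh y : ℤ) (w : ι → ℝ)
    (x0 : ℤ) : 0 ≤ eR Mx o x1 s n W sh y w x0 := by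
  have h1 := mR_nonneg (Mx := Mx) (o := o) (x1 := x1) (s := s) (n := n)
    (W := fun k x => W k x y) (fun k x => hW0 k x y) y w x0
  have h2 : 0 ≤ ∑ k ∈ range (n + 1), W k x0 y *
      nsq ((Rs Mx o x1 s n sh k x0 (ix k (y - sh)) - Rm Mx o x1 s n k x0 y) *ᵥ w) :=
    sum_nonneg fun k _ => mul_nonneg (hW0 k x0 y) (nsq_nonneg _)
  unfold eR
  linarith

/-- **Every scale**, shifted grid. -/
theorem le_eR {W : ℕ → ℤ → ℤ → ℝ} (hW0 : ∀ k x0 y, 0 ≤ W k x0 y)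
    (hWm : ∀ k < n, ∀ x y, W k x y ≤ W (k + 1) x y) (sh : ℤ) {k : ℕ} (hk : k ≤ n) (x0 y : ℤ)
    (w : ι → ℝ) :
    W k x0 y * nsq (Rs Mx o x1 s n sh k x0 (ix k (y - sh)) *ᵥ w) ≤
      eR Mx o x1 s n W sh y w x0 := by
  have h1 := le_mR (Mx := Mx) (o := o) (x1 := x1) (s := s) (n := n)
    (W := fun k x => W k x y) (fun k x => hW0 k x y) (fun k hk x => hWm k hk x y) hk x0 y w
  beta_reduce at h1
  have h2 : W k x0 y *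
      nsq ((Rs Mx o x1 s n sh k x0 (ix k (y - sh)) - Rm Mx o x1 s n k x0 y) *ᵥ w) ≤
      ∑ k ∈ range (n + 1), W k x0 y *
        nsq ((Rs Mx o x1 s n sh k x0 (ix k (y - sh)) - Rm Mx o x1 s n k x0 y) *ᵥ w) :=
    single_le_sum (f := fun k => W k x0 y *
      nsq ((Rs Mx o x1 s n sh k x0 (ix k (y - sh)) - Rm Mx o x1 s n k x0 y) *ᵥ w))
      (fun k _ => mul_nonneg (hW0 k x0 y) (nsq_nonneg _)) (mem_range.2 (by omega))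
  have h3 := nsq_add_le
    ((Rs Mx o x1 s n sh k x0 (ix k (y - sh)) - Rm Mx o x1 s n k x0 y) *ᵥ w)
    (Rm Mx o x1 s n k x0 y *ᵥ w)
  rw [← add_mulVec, sub_add_cancel] at h3
  have h4 := mul_le_mul_of_nonneg_left h3 (hW0 k x0 y)
  unfold eR
  linarith

/-- the sum over `x₀` and `y` -/
theorem sum_eR {W : ℕ → ℤ → ℤ → ℝ} {e : ℝ} (he : 0 ≤ e)
    (hW : ∀ k ≤ n, ∀ j y, ∑ x0 ∈ iv k j, W k x0 y ≤ e * 2 ^ k) (sh : ℤ) (v : ℤ → ι → ℝ) {q : ℝ}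
    (hq : ∑ y ∈ iv n M3, ∑ k ∈ range (n + 1), ∑ x0 ∈ iv n T, W k x0 y *
      nsq ((Rs Mx o x1 s n sh k x0 (ix k (y - sh)) - Rm Mx o x1 s n k x0 y) *ᵥ v y) ≤ q) :
    ∑ y ∈ iv n M3, ∑ x0 ∈ iv n T, eR Mx o x1 s n W sh y (v y) x0 ≤
      8 * e * (∑ y ∈ iv n M3, ∑ x0 ∈ iv n T, nsq (Rm Mx o x1 s n 0 x0 y *ᵥ v y)) + 2 * q := by
  have h1 : ∀ y ∈ iv n M3, ∑ x0 ∈ iv n T, eR Mx o x1 s n W sh y (v y) x0 ≤
      8 * e * (∑ x0 ∈ iv n T, nsq (Rm Mx o x1 s n 0 x0 y *ᵥ v y)) +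
      2 * ∑ k ∈ range (n + 1), ∑ x0 ∈ iv n T, W k x0 y *
        nsq ((Rs Mx o x1 s n sh k x0 (ix k (y - sh)) - Rm Mx o x1 s n k x0 y) *ᵥ v y) := by
    intro y _
    unfold eR
    rw [sum_add_distrib, ← mul_sum, ← mul_sum, sum_comm (s := iv n T)]
    have h := sum_mR (Mx := Mx) (o := o) (x1 := x1) (s := s) (n := n) (T := T)
      (W := fun k x => W k x y) he (fun k hk j => hW k hk j y) y (v y)
    linarith
  refine (sum_le_sum h1).trans ?_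
  rw [sum_add_distrib, ← mul_sum, ← mul_sum]
  linarith

/-- **All scales at one `x₀`**, letters of `S1`; `hR` is the end energy of the slot. -/
theorem sum_eR_Q (hs1 : ∀ k a b, |s k a b| ≤ 1) (ho : o = 1 ∨ o = -1) {Q : (ι → ℝ) → ℝ}
    (hX : ∀ a, ∑ i ∈ range n, En Mx n T x1 M3 (i + 1) a ≤ 2 ^ n * Q a)
    (hR : ∀ p a, ∑ x0 ∈ iv n T, nsq (Rm Mx o x1 s n 0 x0 p *ᵥ a) ≤ 2 ^ n * Q a)
    {W : ℕ → ℤ → ℤ → ℝ} {e : ℝ} (he : 0 ≤ e) (hW0 : ∀ k x0 y, 0 ≤ W k x0 y)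
    (hW : ∀ k ≤ n, ∀ j y, ∑ x0 ∈ iv k j, W k x0 y ≤ e * 2 ^ k)
    {θ : ℕ → ℤ → ℝ} (hθ0 : ∀ k m, 0 ≤ θ k m)
    (hθ : ∀ k m a, nsq (Mx k m *ᵥ a) ≤ θ k m * nsq a) {Θ : ℝ}
    (hΘ : ∑ i ∈ range n, 2 ^ (i + 1) * ∑ R ∈ wn n T x1 M3, ∑ m ∈ iv (n - (i + 1)) R, θ (i + 1) m ≤
      Θ * 2 ^ n) {v : ℤ → ι → ℝ} {V : ℝ} (hV : ∀ y ∈ iv n M3, nsq (v y) ≤ V) (L : ℕ) (sh : ℤ) :
    ∑ y ∈ iv n M3, ∑ x0 ∈ iv n T, eR Mx o x1 s n W sh y (v y) x0 ≤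
      e * ((104 + 32 * (L : ℝ) ^ 3) * (2 ^ n * ∑ y ∈ iv n M3, Q (v y)) +
        128 * (((L : ℝ) + 2) ^ 2 + 2) / 2 ^ L * (V * Θ * 4 ^ n)) := by
  have h1 := sum_eR (T := T) he hW sh v
    (S1 (T := T) hs1 ho hX he hW0 hW hθ0 hθ hΘ hV L sh)
  have h2 : ∑ y ∈ iv n M3, ∑ x0 ∈ iv n T, nsq (Rm Mx o x1 s n 0 x0 y *ᵥ v y) ≤
      2 ^ n * ∑ y ∈ iv n M3, Q (v y) := by
    rw [mul_sum]
    exact sum_le_sum fun y _ => hR y (v y)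
  have h3 := mul_le_mul_of_nonneg_left h2 (by linarith : 0 ≤ 8 * e)
  refine (h1.trans (add_le_add_left h3 _)).trans (le_of_eq ?_)
  ring

end

end Vale.Agent.P141.H224
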