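import Vale.Agent.P141.H224.EnN
import Vale.Agent.P141.H816.FDat

/-!
# P141, line (A): the hypotheses of `EnN` for a killed path

`Qa` : the affected alive squares of the root; `hm_kF`, `line_kF`, `pack_Qa`, `mass_Qa`.
-/

namespace Vale.Agent.P141.H224

open Finset Matrix
open Vale.Agent.P141.PL (Pt iv ix cb mem_iv ix_ix card_iv mem_cb cx)
open Vale.Agent.P141.PL.H315 (A2)
open Vale.Agent.P141.H43 (nsq nsq_nonneg)
open Vale.Agent.P141.H48 (BSl sst)
open Vale.Agent.P141.H677 (kF)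
open Vale.Agent.P141.H958 (PackQ Aff)

noncomputable section

open scoped Classical

variable {n K : ℕ} {e cP Λ s : ℝ} {F : ℕ → Pt → ℝ} {Q : ℕ → Pt → Prop} {a : ℤ × ℤ → ℝ}
variable {M1 M3 : ℤ}

/-- the affected alive squares of the root -/
def Qa (Λ : ℝ) (a : ℤ × ℤ → ℝ) (K : ℕ) (Q : ℕ → Pt → Prop) (M1 M3 : ℤ) (k : ℕ) (i r s : ℤ) :
    Prop :=
  1 ≤ k ∧ Q k (i, r, s) ∧ ¬ sst Λ a K k (2 ^ k * r) (2 ^ k * s) ∧ r ∈ iv (K - k) M1 ∧
    s ∈ iv (K - k) M3

theorem sst_corner (k : ℕ) (x z : ℤ) :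
    sst Λ a K k (2 ^ k * ix k x) (2 ^ k * ix k z) ↔ sst Λ a K k x z :=
  H769.sst_congr (ix_pow_mul k _) (ix_pow_mul k _)

/-- not affected: the square of the killed input does not grow downwards -/
theorem hm_kF (hB : BSl n e cP F Q) (hK : K ≤ n) {x0 x z : ℤ} (hx : x ∈ iv K M1)
    (hz : z ∈ iv K M3) {k : ℕ} (hk : k < K)
    (h : ¬ Qa Λ a K Q M1 M3 k (ix k x0) (ix k x) (ix k z)) :
    kF Λ a K F k (x0, x, z) ^ 2 ≤ kF Λ a K F (k + 1) (x0, x, z) ^ 2 := by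
  by_cases h0 : k = 0
  · have : kF Λ a K F k (x0, x, z) = 0 := by
      unfold H677.kF
      rw [if_pos (Or.inl h0)]
    rw [this, zero_pow two_ne_zero]
    exact sq_nonneg _
  by_cases h1 : sst Λ a K k x z
  · have : kF Λ a K F k (x0, x, z) = 0 := by
      unfold H677.kF
      rw [if_pos (Or.inr h1)]
    rw [this, zero_pow two_ne_zero]
    exact sq_nonneg _
  have h2 : ¬ sst Λ a K (k + 1) x z := fun h' => h1 (H769.sst_anti (Nat.le_succ k) h')
  have hrx : ix k x ∈ iv (K - k) M1 := by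
    rw [mem_iv, ix_ix, Nat.add_sub_cancel' hk.le]
    exact mem_iv.1 hx
  have hrz : ix k z ∈ iv (K - k) M3 := by
    rw [mem_iv, ix_ix, Nat.add_sub_cancel' hk.le]
    exact mem_iv.1 hz
  have h3 : ¬ Q k (ix k x0, ix k x, ix k z) := fun hQ =>
    h ⟨by omega, hQ, fun hs => h1 ((sst_corner k x z).1 hs), hrx, hrz⟩
  have h4 := hB.agree k (by omega) (by omega) (ix k x0, ix k x, ix k z) h3 (x0, x, z)
    (mem_cb.2 rfl)
  have e1 : kF Λ a K F k (x0, x, z) = F k (x0, x, z) := by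
    unfold H677.kF
    rw [if_neg]
    rintro (h | h)
    · exact h0 h
    · exact h1 h
  have e2 : kF Λ a K F (k + 1) (x0, x, z) = F (k + 1) (x0, x, z) := by
    unfold H677.kF
    rw [if_neg]
    rintro (h | h)
    · exact absurd h (Nat.succ_ne_zero k)
    · exact h2 h
  rw [e1, e2, h4]

/-- line sums -/
theorem line_kF (hB : BSl n e cP F Q) (hK : K ≤ n) {k : ℕ} (hk : k < K) (j x z : ℤ) :
    ∑ x0 ∈ iv k j, kF Λ a K F (k + 1) (x0, x, z) ^ 2 ≤ e * 2 ^ k := by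
  refine le_trans (sum_le_sum fun x0 _ => ?_) (hB.l0 k (by omega) j x z)
  by_cases h : k + 1 = 0 ∨ sst Λ a K (k + 1) x z
  · have e1 : kF Λ a K F (k + 1) (x0, x, z) = 0 := by
      unfold H677.kF
      exact if_pos h
    rw [e1, zero_pow two_ne_zero]
    exact sq_nonneg _
  · have e1 : kF Λ a K F (k + 1) (x0, x, z) = F (k + 1) (x0, x, z) := by
      unfold H677.kF
      exact if_neg h
    rw [e1]

/-- packing of the affected squares at every `x₀` -/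
theorem pack_Qa (hB : BSl n e cP F Q) (hK : K ≤ n) (x0 R S : ℤ) :
    PackQ K R S (fun l => Qa Λ a K Q M1 M3 l (ix l x0)) (max 1 cP) := by
  intro K' hK' n' m'
  refine (H769.aff_filter_le _ n' m').trans ?_
  refine le_trans (sum_le_sum fun k _ => sum_le_sum fun r _ => sum_le_sum fun s _ => ?_)
    ((hB.pack x0 K' (hK'.trans hK) n' m').trans
      (mul_le_mul_of_nonneg_right (le_max_right 1 cP) (by positivity)))
  by_cases h : Q k (ix k x0, r, s)
  · rw [if_pos h]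
    split_ifs
    · exact le_rfl
    · positivity
  · rw [if_neg h, if_neg (fun h' => h h'.2.1)]

/-- mass of the affected squares -/
theorem mass_Qa {ι : Type*} [Fintype ι] (hΛ : 0 ≤ Λ) {X Y : ℤ} (hX : M1 = ix K X)
    (hY : M3 = ix K Y) (ha : A2 K a X Y ≤ s) {v : ℤ → ℤ → ι → ℝ}
    (hv : ∀ x ∈ iv K M1, ∀ z ∈ iv K M3, nsq (v x z) ≤ a (x, z) ^ 2) {k : ℕ} (hk : k < K)
    {i0 i j : ℤ} (h : Qa Λ a K Q M1 M3 k i0 i j) :
    ∑ x ∈ iv k i, ∑ z ∈ iv k j, nsq (v x z) ≤ 4 * Λ * s * 4 ^ k := by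
  obtain ⟨_, _, h3, h4, h5⟩ := h
  have hst : ¬ sst Λ a K (k + 1) (2 ^ k * i) (2 ^ k * j) := fun h' =>
    h3 (H769.sst_anti (Nat.le_succ k) h')
  have h6 := H816.sq_alive hΛ hk ((mem_iv.1 h4).trans hX) ((mem_iv.1 h5).trans hY) ha hst
  refine le_trans (sum_le_sum fun x hx => sum_le_sum fun z hz => hv x ?_ z ?_) h6
  · rw [mem_iv, ← mem_iv.1 h4, ← mem_iv.1 hx, ix_ix, Nat.add_sub_cancel' hk.le]
  · rw [mem_iv, ← mem_iv.1 h5, ← mem_iv.1 hz, ix_ix, Nat.add_sub_cancel' hk.le]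

end

end Vale.Agent.P141.H224
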