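import Vale.Agent.P141.H224.EnSum

/-!
# P141, line (A): the energies of one slot, signed and blind deviations, scalar numbers

* `dev_s`, `dev_b` : signed and blind bound of the deviations for every weight;
* `end_s`, `end_b` : the end energies; `fibN` : small fibres one scale above;
* `tail_half` : the tail is at most `2 ^ (-L)`; `num_b`, `num_s` : the numbers.
-/

namespace Vale.Agent.P141.H224

open Finset Matrix
open Vale.Agent.P141.PL (Pt iv ix cb mem_iv ix_ix card_iv mem_cb cx)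
open Vale.Agent.P141.H43 (nsq nsq_nonneg)
open Vale.Agent.P141.H841 (Rm Rs Mc Th1 cJ uJ thH alF)
open Vale.Agent.P141.H64 (Qf)
open Vale.Agent.P141.H677 (KT GT MT kF sN rt)
open Vale.Agent.P141.H677.Sk (av Slt FDs FamA FamV lam1 SlotN)

noncomputable section

open scoped Classical

set_option linter.unusedSectionVars false

variable {ι : Type} [Fintype ι] [DecidableEq ι]

section dev

variable {K : ℕ} {x : Pt} {s r : ℝ} {U : PL.H315.Tri} {g : ℤ → ℤ → ℝ} {u v : ℤ → ℤ → ι → ℝ}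
  {v' : ℤ → ℤ → ι → ℝ} {o : ℤ} {E P l : ℝ} {sx : ℤ → ℕ → ℤ → ℤ → ℝ} {T h : ℤ}

theorem dev_s (Cl : H305.Cls K x s r P U g u v) (hl : 0 < l)
    (hv : ∀ x' z, v' x' z ⬝ᵥ v' x' z ≤ v x' z ⬝ᵥ v x' z)
    (HN : ∀ x1 ∈ iv K (cx K x).1, H64.HypN (Mc l K (cx K x).2.1 u x1) o x1 T (cx K x).2.2 K
      (sx x1) (cJ l K (cx K x).2.1) (uJ K (cx K x).2.1 u x1) (thH (Mc l K (cx K x).2.1 u x1))
      (Th1 l K (cx K x).2.1 u x1) (Th1 l K (cx K x).2.1 u x1) E)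
    {V Θ δ : ℝ} (hV0 : 0 ≤ V) {al : ℤ → ℕ → ℤ → Prop}
    (hV : ∀ x1 ∈ iv K (cx K x).1, ∀ k ≤ K, ∀ y, al x1 k y →
      ∑ y' ∈ iv k (ix k y), nsq (v' x1 y') ≤ V * 2 ^ k)
    (hE : 0 ≤ E) (hδ : 0 < δ) (hΘ : ∀ x1 ∈ iv K (cx K x).1, Th1 l K (cx K x).2.1 u x1 ≤ Θ)
    (L : ℕ) :
    SS (fun x1 => Mc l K (cx K x).2.1 u x1) o sx K v' (cx K x) T h al
      (1728 * (1 + (L : ℝ)) ^ 3 * (s * 8 ^ K *
        (δ + V / (2 * l) * (E / δ + (1 + Θ / δ) / 2 ^ L)))) := by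
  intro W e he w0 w1 w2
  refine (sum_le_sum fun x1 hx1 => H64.S1s (HN x1 hx1) he (w0 x1) (w1 x1 hx1) hV0 (hV x1 hx1)
    (fun y hy k hk hn => w2 x1 hx1 y hy k hk hn) L h hδ).trans ?_
  rw [← mul_sum]
  have h1 := H841.NB_sum Cl hl hv hV0 hE hδ hΘ L
  refine (mul_le_mul_of_nonneg_left h1 (by positivity)).trans (le_of_eq ?_)
  ring

theorem dev_b (Cl : H305.Cls K x s r P U g u v) (hl : 0 < l) (hP : 0 ≤ P)
    (hv : ∀ x' z, v' x' z ⬝ᵥ v' x' z ≤ v x' z ⬝ᵥ v x' z) (ho : o = 1 ∨ o = -1)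
    (hs1 : ∀ x1 k a b, |sx x1 k a b| ≤ 1) {V : ℝ} (hV0 : 0 ≤ V) {al : ℤ → ℕ → ℤ → Prop}
    (hV : ∀ x1 ∈ iv K (cx K x).1, ∀ k ≤ K, ∀ y, al x1 k y →
      ∑ y' ∈ iv k (ix k y), nsq (v' x1 y') ≤ V * 2 ^ k) (L : ℕ) :
    SS (fun x1 => Mc l K (cx K x).2.1 u x1) o sx K v' (cx K x) T h al
      (s * 8 ^ K * ((48 + 16 * (L : ℝ) ^ 3) * (P / (2 * l)) +
        128 * (((L : ℝ) + 2) ^ 2 + 2) / 2 ^ L * (V / (2 * l)))) := by
  intro W e he w0 w1 w2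
  refine (sum_le_sum fun x1 hx1 => H841.S1b hl ho (hs1 x1) he (w0 x1) (w1 x1 hx1) hV0
    (hV x1 hx1) (fun y hy k hk hn => w2 x1 hx1 y hy k hk hn) L h).trans ?_
  rw [← mul_sum]
  refine mul_le_mul_of_nonneg_left ?_ he
  set a : ℝ := 48 + 16 * (L : ℝ) ^ 3 with ha
  set c : ℝ := 128 * (((L : ℝ) + 2) ^ 2 + 2) / 2 ^ L with hc
  have a0 : 0 ≤ a := by positivity
  have c0 : 0 ≤ c := by positivity
  have h1 := H841.Q_sumC Cl hl hP hv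
  have h2 := H841.Th_sumC Cl hl
  have e1 : ∑ x1 ∈ iv K (cx K x).1, (a * (2 ^ K * ∑ y ∈ iv K (cx K x).2.2,
      Qf (cJ l K (cx K x).2.1) (uJ K (cx K x).2.1 u x1) (v' x1 y)) +
      c * (V * Th1 l K (cx K x).2.1 u x1 * 4 ^ K)) =
      a * 2 ^ K * ∑ x1 ∈ iv K (cx K x).1, ∑ y ∈ iv K (cx K x).2.2,
        Qf (cJ l K (cx K x).2.1) (uJ K (cx K x).2.1 u x1) (v' x1 y) +
      c * V * 4 ^ K * ∑ x1 ∈ iv K (cx K x).1, Th1 l K (cx K x).2.1 u x1 := by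
    rw [sum_add_distrib, mul_sum, mul_sum]
    congr 1
    · exact sum_congr rfl fun _ _ => by ring
    · exact sum_congr rfl fun _ _ => by ring
  rw [e1]
  have h3 := mul_le_mul_of_nonneg_left h1 (by positivity : 0 ≤ a * 2 ^ K)
  have h4 := mul_le_mul_of_nonneg_left h2 (by positivity : 0 ≤ c * V * 4 ^ K)
  refine (add_le_add h3 h4).trans (le_of_eq ?_)
  have e8 : (8 : ℝ) ^ K = 2 ^ K * 4 ^ K := by rw [← mul_pow]; norm_num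
  rw [e8]
  field_simp

theorem end_s (Cl : H305.Cls K x s r P U g u v)
    (hv : ∀ x' z, v' x' z ⬝ᵥ v' x' z ≤ v x' z ⬝ᵥ v x' z) (hE : 0 ≤ E)
    (HN : ∀ x1 ∈ iv K (cx K x).1, H64.HypN (Mc l K (cx K x).2.1 u x1) o x1 T (cx K x).2.2 K
      (sx x1) (cJ l K (cx K x).2.1) (uJ K (cx K x).2.1 u x1) (thH (Mc l K (cx K x).2.1 u x1))
      (Th1 l K (cx K x).2.1 u x1) (Th1 l K (cx K x).2.1 u x1) E) :
    ∑ x1 ∈ iv K (cx K x).1, ∑ z ∈ iv K (cx K x).2.2, ∑ x0 ∈ iv K T,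
      nsq (Rm (Mc l K (cx K x).2.1 u x1) o x1 (sx x1) K 0 x0 z *ᵥ v' x1 z) ≤
        s * 8 ^ K * E := by
  refine (sum_le_sum fun x1 hx1 => H64.endE (HN x1 hx1) (v' x1)).trans ?_
  rw [← mul_sum]
  have h1 := H841.mass_C Cl hv
  refine (mul_le_mul_of_nonneg_left h1 (by positivity)).trans (le_of_eq ?_)
  have e8 : (8 : ℝ) ^ K = 2 ^ K * 4 ^ K := by rw [← mul_pow]; norm_num
  rw [e8]
  ring

theorem end_b (Cl : H305.Cls K x s r P U g u v) (hl : 0 < l) (hP : 0 ≤ P)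
    (hv : ∀ x' z, v' x' z ⬝ᵥ v' x' z ≤ v x' z ⬝ᵥ v x' z) (ho : o = 1 ∨ o = -1)
    (hs1 : ∀ x1 k a b, |sx x1 k a b| ≤ 1) :
    ∑ x1 ∈ iv K (cx K x).1, ∑ z ∈ iv K (cx K x).2.2, ∑ x0 ∈ iv K T,
      nsq (Rm (Mc l K (cx K x).2.1 u x1) o x1 (sx x1) K 0 x0 z *ᵥ v' x1 z) ≤
        s * 8 ^ K * (P / (2 * l)) := by
  refine (sum_le_sum fun x1 _ => H841.endB hl ho (hs1 x1) (v' x1)).trans ?_
  rw [← mul_sum]
  have h1 := H841.Q_sumC Cl hl hP hv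
  refine (mul_le_mul_of_nonneg_left h1 (by positivity)).trans (le_of_eq ?_)
  have e8 : (8 : ℝ) ^ K = 2 ^ K * 4 ^ K := by rw [← mul_pow]; norm_num
  rw [e8]
  field_simp

end dev

/-- small fibres, live one scale above -/
theorem fibN {q : H401.Num} {n : ℕ} {ez : ℝ} {F1 F2 F3 : ℕ → Pt → ℝ} {K : ℕ} {x : Pt}
    {s r : ℝ} {U : PL.H315.Tri} {g : ℤ → ℤ → ℝ} {u v : ℤ → ℤ → ι → ℝ} {A : FamA}
    {b C : FamV ι} {Q1 Q2 Q3 : ℕ → Pt → Prop} {v' : ℤ → ℤ → ι → ℝ}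
    (D : FDs q n ez F1 F2 F3 K x s r U g u v A b C Q1 Q2 Q3 v') (h0 : 0 ≤ lam1 q s r) {x1 : ℤ}
    (hx1 : x1 ∈ iv K (ix K x.1)) :
    ∀ k ≤ K, ∀ y, alN q K x U x1 k y →
      ∑ y' ∈ iv k (ix k y), nsq (v' x1 y') ≤ 2 * lam1 q s r * 2 ^ k := by
  intro k hk y hy
  unfold alN at hy
  rcases Nat.lt_or_ge k K with h1 | h1
  · rw [Nat.min_eq_left (by omega : k + 1 ≤ K)] at hy
    have h2 := H841.fibF D hx1 (k + 1) (by omega) y hy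
    have h3 : iv k (ix k y) ⊆ iv (k + 1) (ix (k + 1) y) := by
      intro p hp
      rw [mem_iv] at hp ⊢
      have e1 := ix_ix k 1 p
      have e2 := ix_ix k 1 y
      rw [← e1, hp, e2]
    exact (sum_le_sum_of_subset_of_nonneg h3 fun _ _ _ => nsq_nonneg _).trans
      (h2.trans (le_of_eq (by ring)))
  · have e1 : k = K := le_antisymm hk h1
    subst e1
    rw [Nat.min_eq_right (by omega : k ≤ k + 1)] at hy
    have h2 := H841.fibF D hx1 k le_rfl y hy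
    have h3 : 0 ≤ lam1 q s r * 2 ^ k := by positivity
    linarith

theorem tail_half {B : ℝ} (hB : 1 ≤ B) {m0 : ℕ} (hm : B ≤ m0) (L : ℕ) :
    (1 - 1 / B) ^ (m0 * L) ≤ 1 / 2 ^ L := by
  have hB0 : 0 < B := by linarith
  have h0 : 0 ≤ 1 - 1 / B := by
    rw [sub_nonneg, div_le_one hB0]
    exact hB
  have h1 : (1 - 1 / B) ^ m0 ≤ 1 / 2 := by
    have h2 : 1 - 1 / B ≤ Real.exp (-(1 / B)) := by
      have := Real.add_one_le_exp (-(1 / B))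
      linarith
    refine (pow_le_pow_left₀ h0 h2 m0).trans ?_
    rw [← Real.exp_nat_mul]
    have h3 : (m0 : ℝ) * -(1 / B) ≤ -1 := by
      have : 1 ≤ (m0 : ℝ) * (1 / B) := by
        rw [mul_one_div, le_div_iff₀ hB0]
        linarith
      linarith
    refine (Real.exp_le_exp.2 h3).trans ?_
    have := Real.exp_neg_one_lt_d9
    linarith
  rw [pow_mul, ← _root_.one_div_pow]
  exact pow_le_pow_left₀ (pow_nonneg h0 m0) h1 L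

theorem card_rt (M : Pt) : (rt M).card = 3 := by
  unfold H677.rt
  rw [Int.card_Icc]
  have : -(M.1 + M.2.1 + M.2.2) - 1 + 1 - (-(M.1 + M.2.1 + M.2.2) - 3) = 3 := by ring
  rw [this]
  rfl

theorem pow_bd {L : ℕ} : 16 + 4 * (48 + 16 * (L : ℝ) ^ 3) ≤ 4608 * (1 + (L : ℝ)) ^ 3 ∧
    6 * (128 * (((L : ℝ) + 2) ^ 2 + 2)) ≤ 4608 * (1 + (L : ℝ)) ^ 3 := by
  have h0 : (0 : ℝ) ≤ L := Nat.cast_nonneg L
  have h2 := sq_nonneg (L : ℝ)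
  have h3 : (0 : ℝ) ≤ (L : ℝ) ^ 3 := by positivity
  constructor
  · nlinarith
  · nlinarith

theorem lam_bd {m0 L : ℕ} : ((m0 * L : ℕ) : ℝ) + 2 ≤ ((m0 : ℝ) + 2) * (1 + (L : ℝ)) := by
  have h0 : (0 : ℝ) ≤ L := Nat.cast_nonneg L
  have h1 : (0 : ℝ) ≤ m0 := Nat.cast_nonneg m0
  push_cast
  nlinarith

/-- **blind numbers** -/
theorem num_b {m0 L : ℕ} {B p w κ Lm Lc y1 z : ℝ} (hB : 1 ≤ B) (hm : B ≤ m0) (hp : 0 ≤ p)
    (hw : 0 ≤ w) (hLm : 0 ≤ Lm) (hLc : 1 ≤ Lc) (hy : 0 ≤ y1) (hp1 : p ≤ Lc * y1) (hw1 : w ≤ z)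
    (hk : κ ^ 2 * Lm ≤ z) :
    (((m0 * L : ℕ) : ℝ) + 2) * (16 * p + 2 * ((48 + 16 * (L : ℝ) ^ 3) * p +
        128 * (((L : ℝ) + 2) ^ 2 + 2) / 2 ^ L * w) + 2 * ((48 + 16 * (L : ℝ) ^ 3) * p +
        128 * (((L : ℝ) + 2) ^ 2 + 2) / 2 ^ L * (2 * w))) +
      8 * (κ ^ 2 * Lm) * B * (1 - 1 / B) ^ (m0 * L) ≤
      ((((m0 : ℝ) + 2) * 10368 + 8 * B) * Lc) * (1 + (L : ℝ)) ^ 4 * (y1 + z / 2 ^ L) := by
  obtain ⟨h1, h2⟩ := pow_bd (L := L)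
  have h3 := lam_bd (m0 := m0) (L := L)
  have h4 := tail_half hB hm L
  have L0 : (0 : ℝ) ≤ L := Nat.cast_nonneg L
  have M0 : (0 : ℝ) ≤ m0 := Nat.cast_nonneg m0
  have z0 : 0 ≤ z := hw.trans hw1
  have k0 : 0 ≤ κ ^ 2 * Lm := mul_nonneg (sq_nonneg _) hLm
  have p2 : (0 : ℝ) < 2 ^ L := by positivity
  have e1 : 16 * p + 2 * ((48 + 16 * (L : ℝ) ^ 3) * p +
        128 * (((L : ℝ) + 2) ^ 2 + 2) / 2 ^ L * w) + 2 * ((48 + 16 * (L : ℝ) ^ 3) * p +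
        128 * (((L : ℝ) + 2) ^ 2 + 2) / 2 ^ L * (2 * w)) =
      (16 + 4 * (48 + 16 * (L : ℝ) ^ 3)) * p +
        6 * (128 * (((L : ℝ) + 2) ^ 2 + 2)) * (w / 2 ^ L) := by ring
  rw [e1]
  have w0 : 0 ≤ w / 2 ^ L := by positivity
  have a1 : (16 + 4 * (48 + 16 * (L : ℝ) ^ 3)) * p +
      6 * (128 * (((L : ℝ) + 2) ^ 2 + 2)) * (w / 2 ^ L) ≤
      4608 * (1 + (L : ℝ)) ^ 3 * (Lc * y1 + z / 2 ^ L) := by
    have b1 := mul_le_mul h1 hp1 hp (by positivity)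
    have b2 := mul_le_mul h2 (div_le_div_of_nonneg_right hw1 p2.le) w0 (by positivity)
    linarith
  have a2 : Lc * y1 + z / 2 ^ L ≤ Lc * (y1 + z / 2 ^ L) := by
    have : z / 2 ^ L ≤ Lc * (z / 2 ^ L) := le_mul_of_one_le_left (by positivity) hLc
    linarith
  have a3 : 0 ≤ y1 + z / 2 ^ L := by positivity
  have a4 : (((m0 * L : ℕ) : ℝ) + 2) * ((16 + 4 * (48 + 16 * (L : ℝ) ^ 3)) * p +
      6 * (128 * (((L : ℝ) + 2) ^ 2 + 2)) * (w / 2 ^ L)) ≤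
      ((m0 : ℝ) + 2) * (1 + (L : ℝ)) * (4608 * (1 + (L : ℝ)) ^ 3 *
        (Lc * (y1 + z / 2 ^ L))) := by
    refine mul_le_mul h3 (a1.trans (mul_le_mul_of_nonneg_left a2 (by positivity)))
      (by positivity) (by positivity)
  have a5 : 8 * (κ ^ 2 * Lm) * B * (1 - 1 / B) ^ (m0 * L) ≤ 8 * z * B * (1 / 2 ^ L) := by
    have hB0 : 0 < B := by linarith
    have q0 : 0 ≤ (1 - 1 / B) ^ (m0 * L) := by
      refine pow_nonneg ?_ _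
      rw [sub_nonneg, div_le_one hB0]
      exact hB
    refine mul_le_mul ?_ h4 q0 (by positivity)
    refine mul_le_mul_of_nonneg_right ?_ hB0.le
    linarith
  have a6 : 8 * z * B * (1 / 2 ^ L) ≤ 8 * B * Lc * (1 + (L : ℝ)) ^ 4 * (y1 + z / 2 ^ L) := by
    have c1 : (1 : ℝ) ≤ (1 + (L : ℝ)) ^ 4 := one_le_pow₀ (by linarith)
    have c2 : (1 : ℝ) ≤ Lc * (1 + (L : ℝ)) ^ 4 := by nlinarith
    have c3 : z / 2 ^ L ≤ Lc * (1 + (L : ℝ)) ^ 4 * (y1 + z / 2 ^ L) := by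
      refine le_trans (by linarith : z / 2 ^ L ≤ y1 + z / 2 ^ L) ?_
      exact le_mul_of_one_le_left a3 c2
    have c4 := mul_le_mul_of_nonneg_left c3 (by positivity : 0 ≤ 8 * B)
    refine le_trans (le_of_eq (by ring)) (c4.trans (le_of_eq (by ring)))
  have a7 : ((m0 : ℝ) + 2) * (1 + (L : ℝ)) * (4608 * (1 + (L : ℝ)) ^ 3 *
      (Lc * (y1 + z / 2 ^ L))) ≤
      ((m0 : ℝ) + 2) * 10368 * Lc * (1 + (L : ℝ)) ^ 4 * (y1 + z / 2 ^ L) := by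
    have c5 : 0 ≤ ((m0 : ℝ) + 2) * Lc * (1 + (L : ℝ)) ^ 4 * (y1 + z / 2 ^ L) := by positivity
    nlinarith
  linarith

/-- **signed numbers** -/
theorem num_s {m0 L : ℕ} {B w κ Lm Lc z z1 δ E Θ : ℝ} (hB : 1 ≤ B) (hm : B ≤ m0)
    (hw : 0 ≤ w) (hLm : 0 ≤ Lm) (hLc : 1 ≤ Lc) (hδ : 0 < δ) (hE : 0 ≤ E) (hΘ : 0 ≤ Θ)
    (hw1 : w ≤ z1) (hwΘ : w * Θ ≤ z1) (hz : z1 ≤ z) (hk : κ ^ 2 * Lm ≤ z) :
    (((m0 * L : ℕ) : ℝ) + 2) * (16 * E + 2 * (1728 * (1 + (L : ℝ)) ^ 3 *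
        (δ + w * (E / δ + (1 + Θ / δ) / 2 ^ L))) + 2 * (1728 * (1 + (L : ℝ)) ^ 3 *
        (δ + 2 * w * (E / δ + (1 + Θ / δ) / 2 ^ L)))) +
      8 * (κ ^ 2 * Lm) * B * (1 - 1 / B) ^ (m0 * L) ≤
      ((((m0 : ℝ) + 2) * 10368 + 8 * B) * Lc) * (1 + (L : ℝ)) ^ 4 *
        (δ + z1 * E / δ + E + z * (1 + 1 / δ) / 2 ^ L) := by
  have h3 := lam_bd (m0 := m0) (L := L)
  have h4 := tail_half hB hm L
  have L0 : (0 : ℝ) ≤ L := Nat.cast_nonneg L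
  have M0 : (0 : ℝ) ≤ m0 := Nat.cast_nonneg m0
  have z10 : 0 ≤ z1 := hw.trans hw1
  have z0 : 0 ≤ z := z10.trans hz
  have k0 : 0 ≤ κ ^ 2 * Lm := mul_nonneg (sq_nonneg _) hLm
  have p2 : (0 : ℝ) < 2 ^ L := by positivity
  set G : ℝ := δ + z1 * E / δ + E + z * (1 + 1 / δ) / 2 ^ L with hG
  have G0 : 0 ≤ G := by positivity
  have c1 : (1 : ℝ) ≤ (1 + (L : ℝ)) ^ 3 := one_le_pow₀ (by linarith)
  have b1 : w * (E / δ + (1 + Θ / δ) / 2 ^ L) ≤ z1 * E / δ + z * (1 + 1 / δ) / 2 ^ L := by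
    have t1 : w * (E / δ) ≤ z1 * E / δ := by
      rw [mul_div_assoc]
      exact mul_le_mul_of_nonneg_right hw1 (by positivity)
    have t2 : w * (1 + Θ / δ) ≤ z * (1 + 1 / δ) := by
      have t3 : w * Θ / δ ≤ z / δ := div_le_div_of_nonneg_right (hwΘ.trans hz) hδ.le
      have t4 : w * (1 + Θ / δ) = w + w * Θ / δ := by ring
      have t5 : z * (1 + 1 / δ) = z + z / δ := by ring
      rw [t4, t5]
      linarith [hw1.trans hz]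
    have t6 := div_le_div_of_nonneg_right t2 p2.le
    have t7 : w * (E / δ + (1 + Θ / δ) / 2 ^ L) = w * (E / δ) + w * (1 + Θ / δ) / 2 ^ L := by
      ring
    rw [t7]
    linarith
  have X0 : 0 ≤ w * (E / δ + (1 + Θ / δ) / 2 ^ L) := by positivity
  have b2 : 16 * E + 2 * (1728 * (1 + (L : ℝ)) ^ 3 *
        (δ + w * (E / δ + (1 + Θ / δ) / 2 ^ L))) + 2 * (1728 * (1 + (L : ℝ)) ^ 3 *
        (δ + 2 * w * (E / δ + (1 + Θ / δ) / 2 ^ L))) ≤ 10368 * (1 + (L : ℝ)) ^ 3 * G := by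
    set X := w * (E / δ + (1 + Θ / δ) / 2 ^ L) with hX
    have e1 : 2 * w * (E / δ + (1 + Θ / δ) / 2 ^ L) = 2 * X := by rw [hX]; ring
    rw [e1]
    set p3 := (1 + (L : ℝ)) ^ 3 with hp3
    have d1 : E ≤ p3 * E := le_mul_of_one_le_left hE c1
    have d2 : δ + X + E ≤ G := by rw [hG]; linarith
    have d3 : p3 * (δ + X + E) ≤ p3 * G := mul_le_mul_of_nonneg_left d2 (by linarith)
    have d4 : 0 ≤ p3 * δ := by positivity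
    have d5 : 0 ≤ p3 * X := by positivity
    nlinarith
  have a4 := mul_le_mul h3 b2 (by positivity) (by positivity)
  have a5 : 8 * (κ ^ 2 * Lm) * B * (1 - 1 / B) ^ (m0 * L) ≤ 8 * z * B * (1 / 2 ^ L) := by
    have hB0 : 0 < B := by linarith
    have q0 : 0 ≤ (1 - 1 / B) ^ (m0 * L) := by
      refine pow_nonneg ?_ _
      rw [sub_nonneg, div_le_one hB0]
      exact hB
    refine mul_le_mul ?_ h4 q0 (by positivity)
    refine mul_le_mul_of_nonneg_right ?_ hB0.le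
    linarith
  have c4 : (1 : ℝ) ≤ (1 + (L : ℝ)) ^ 4 := one_le_pow₀ (by linarith)
  have a6 : 8 * z * B * (1 / 2 ^ L) ≤ 8 * B * Lc * (1 + (L : ℝ)) ^ 4 * G := by
    have c2 : (1 : ℝ) ≤ Lc * (1 + (L : ℝ)) ^ 4 := by nlinarith
    have c5 : z / 2 ^ L ≤ G := by
      have t1 : z / 2 ^ L ≤ z * (1 + 1 / δ) / 2 ^ L := by
        refine div_le_div_of_nonneg_right ?_ p2.le
        have : 0 ≤ z * (1 / δ) := by positivity
        linarith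
      have t2 : 0 ≤ δ + z1 * E / δ + E := by positivity
      rw [hG]
      linarith
    have c3 : z / 2 ^ L ≤ Lc * (1 + (L : ℝ)) ^ 4 * G :=
      c5.trans (le_mul_of_one_le_left G0 c2)
    have c6 := mul_le_mul_of_nonneg_left c3 (by positivity : 0 ≤ 8 * B)
    refine le_trans (le_of_eq (by ring)) (c6.trans (le_of_eq (by ring)))
  have a7 : ((m0 : ℝ) + 2) * (1 + (L : ℝ)) * (10368 * (1 + (L : ℝ)) ^ 3 * G) ≤
      ((m0 : ℝ) + 2) * 10368 * Lc * (1 + (L : ℝ)) ^ 4 * G := by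
    have c5 : 0 ≤ ((m0 : ℝ) + 2) * (1 + (L : ℝ)) ^ 4 * G := by positivity
    have c6 := le_mul_of_one_le_left c5 hLc
    have e9 : ((m0 : ℝ) + 2) * (1 + (L : ℝ)) * (10368 * (1 + (L : ℝ)) ^ 3 * G) =
        10368 * (((m0 : ℝ) + 2) * (1 + (L : ℝ)) ^ 4 * G) := by ring
    have e10 : ((m0 : ℝ) + 2) * 10368 * Lc * (1 + (L : ℝ)) ^ 4 * G =
        10368 * (Lc * (((m0 : ℝ) + 2) * (1 + (L : ℝ)) ^ 4 * G)) := by ring
    rw [e9, e10]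
    linarith
  have a8 : ((((m0 : ℝ) + 2) * 10368 + 8 * B) * Lc) * (1 + (L : ℝ)) ^ 4 * G =
      ((m0 : ℝ) + 2) * 10368 * Lc * (1 + (L : ℝ)) ^ 4 * G +
        8 * B * Lc * (1 + (L : ℝ)) ^ 4 * G := by ring
  rw [a8]
  exact add_le_add (a4.trans a7) (a5.trans a6)

end

end Vale.Agent.P141.H224
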