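import Vale.Agent.P141.H224.NumEn

/-!
# P141, line (A): the energies of all scales of one slot, original coordinates

* `EO` : the number at `x₀`, for the times `j ≤ k` and `j = k + 1`;
* `en_org` : it is above the energies of every scale `k`, times `j ≤ k + 1`;
* `sum_EO` : its sum over the root of `x₀`, from the end energy and from any bound `Y`, `Y'` of the
  deviations for every weight (live scales `al`, resp. `al` one scale above).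
-/

namespace Vale.Agent.P141.H224

open Finset Matrix
open Vale.Agent.P141.PL (Pt iv ix hs mem_iv ix_ix card_iv)
open Vale.Agent.P141.H43 (nsq nsq_nonneg)
open Vale.Agent.P141.H841 (Rm Rs)
open Vale.Agent.P141.H958 (PackQ)

noncomputable section

open scoped Classical

variable {ι : Type} [Fintype ι] [DecidableEq ι]

/-- the affected predicate at the point `(x, z)` -/
def aq (Qf : ℕ → ℤ → ℤ → ℤ → Prop) (x z : ℤ) (l : ℕ) (j : ℤ) : Prop := Qf l j (ix l x) (ix l z)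

/-- **The number at `x₀`.** -/
def EO (Mx : ℤ → ℕ → ℤ → Matrix ι ι ℝ) (o : ℤ) (sx : ℤ → ℕ → ℤ → ℤ → ℝ) (K : ℕ)
    (Qf : ℕ → ℤ → ℤ → ℤ → Prop) (lam : ℕ) (φ : ℤ → ℕ → ℤ → ℤ → ℝ) (v : ℤ → ℤ → ι → ℝ) (κ : ℝ)
    (M : Pt) (h x0 : ℤ) : ℝ :=
  EE Mx o sx K (aq Qf) lam (wf φ) v (fun x z => κ ^ 2 * nsq (v x z)) M h x0 +
    EE Mx o sx K (fun x => anx K (aq Qf x)) (lam + 1) (fun x => nx K (wf φ x)) v
      (fun x z => κ ^ 2 * nsq (v x z)) M h x0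

variable {Mx : ℤ → ℕ → ℤ → Matrix ι ι ℝ} {o : ℤ} {sx : ℤ → ℕ → ℤ → ℤ → ℝ} {K lam : ℕ}
variable {Qf : ℕ → ℤ → ℤ → ℤ → Prop} {φ : ℤ → ℕ → ℤ → ℤ → ℝ} {v : ℤ → ℤ → ι → ℝ} {κ e : ℝ}
variable {C : ℤ → ℕ → ℤ → ℤ → ι → ℝ} {M : Pt} {T h : ℤ}

theorem eQ_nonneg {ι : Type*} [Fintype ι] {Mx : ℕ → ℤ → Matrix ι ι ℝ} {o x1 : ℤ} {n lam : ℕ}
    {s : ℕ → ℤ → ℤ → ℝ} {a : ℤ → ℕ → ℤ → Prop} {W : ℕ → ℤ → ℤ → ℝ} (hW0 : ∀ k x0 y, 0 ≤ W k x0 y)
    (sh y : ℤ) (w : ι → ℝ) {cp : ℝ} (hcp : 0 ≤ cp) (x0 : ℤ) :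
    0 ≤ eQ Mx o x1 s n a lam W sh y w cp x0 := by
  unfold eQ
  refine add_nonneg ?_ (mul_nonneg hcp (tl_nonneg (fun k x => hW0 k x y) x0))
  exact eR_nonneg (W := fun k x y => up (a y) n lam (fun k x => W k x y) k x)
    (fun k x y => up_nonneg (fun k x => hW0 k x y) k x) sh y w x0

theorem EE_nonneg {a : ℤ → ℤ → ℕ → ℤ → Prop} {W : ℤ → ℕ → ℤ → ℤ → ℝ} {cp : ℤ → ℤ → ℝ}
    (hW0 : ∀ x k x0 z, 0 ≤ W x k x0 z) (hcp : ∀ x z, 0 ≤ cp x z) (sh x0 : ℤ) :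
    0 ≤ EE Mx o sx K a lam W v cp M sh x0 :=
  sum_nonneg fun x _ => sum_nonneg fun z _ => eQ_nonneg (hW0 x) sh z (v x z) (hcp x z) x0

theorem EO_nonneg (x0 : ℤ) : 0 ≤ EO Mx o sx K Qf lam φ v κ M h x0 := by
  have hcp : ∀ x z, 0 ≤ κ ^ 2 * nsq (v x z) := fun x z =>
    mul_nonneg (sq_nonneg _) (nsq_nonneg _)
  exact add_nonneg (EE_nonneg (wf_nonneg φ) hcp h x0)
    (EE_nonneg (fun x k x0 z => nx_nonneg (wf_nonneg φ x) k x0 z) hcp h x0)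

/-- **The energies of every scale `k ≤ K`, times `j ≤ k + 1`, at one `x₀`.** -/
theorem en_org (hC : ∀ x0 k z x, C x0 k z x = φ x0 k z x • v x z) {x0 : ℤ}
    (hm : ∀ x ∈ iv K M.1, ∀ z ∈ iv K M.2.2, ∀ k < K, ¬ Qf k (ix k x0) (ix k x) (ix k z) →
      φ x0 k z x ^ 2 ≤ φ x0 (k + 1) z x ^ 2)
    (hcap : ∀ x ∈ iv K M.1, ∀ z ∈ iv K M.2.2, ∀ k ≤ K,
      nsq (Rs (Mx x) o x (sx x) K h k x0 (ix k (z - h)) *ᵥ v x z) ≤ κ ^ 2 * nsq (v x z))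
    {j k : ℕ} (hk : k ≤ K) (hj : j ≤ K) (hjk : j ≤ k + 1) :
    ∑ x ∈ iv K M.1, ∑ z ∈ iv K M.2.2,
        nsq (Rs (Mx x) o x (sx x) K h k x0 (ix k (z - h)) *ᵥ C x0 j z x) ≤
      EO Mx o sx K Qf lam φ v κ M h x0 := by
  have hcp : ∀ x z, 0 ≤ κ ^ 2 * nsq (v x z) := fun x z =>
    mul_nonneg (sq_nonneg _) (nsq_nonneg _)
  rcases Nat.lt_or_ge k j with h1 | h1
  · have e1 : j = k + 1 := by omega
    subst e1
    refine le_trans ?_ (le_add_of_nonneg_left (EE_nonneg (wf_nonneg φ) hcp h x0))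
    unfold EE
    refine sum_le_sum fun x hx => sum_le_sum fun z hz => ?_
    rw [hC, mulVec_smul, H841.nsq_smul]
    exact le_eQ_nloc (Mx := Mx x) (o := o) (x1 := x) (s := sx x) (lam := lam + 1)
      (a := aq Qf x) (W := wf φ x) (fun k => wf_nonneg φ x k x0 z)
      (fun k hk hn => hm x hx z hz k hk hn) h le_rfl (by omega) (v x z) (hcp x z) (by
        unfold wf
        rw [mul_comm (κ ^ 2 * nsq (v x z))]
        exact mul_le_mul_of_nonneg_left (hcap x hx z hz k hk) (sq_nonneg _))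
  · refine le_trans ?_ (le_add_of_nonneg_right
      (EE_nonneg (fun x k x0 z => nx_nonneg (wf_nonneg φ x) k x0 z) hcp h x0))
    unfold EE
    refine sum_le_sum fun x hx => sum_le_sum fun z hz => ?_
    rw [hC, mulVec_smul, H841.nsq_smul]
    exact le_eQ_loc (Mx := Mx x) (o := o) (x1 := x) (s := sx x) (lam := lam) (a := aq Qf x)
      (W := wf φ x) (fun k => wf_nonneg φ x k x0 z) (fun k hk hn => hm x hx z hz k hk hn) h
      h1 hk (v x z) (hcp x z) (by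
        unfold wf
        rw [mul_comm (κ ^ 2 * nsq (v x z))]
        exact mul_le_mul_of_nonneg_left (hcap x hx z hz k hk) (sq_nonneg _))

/-- the tail, one root of `x₀` -/
theorem tailO {B τ : ℝ} (hB : 1 ≤ B) (hτ : 0 ≤ τ)
    (hP : ∀ x0 ∈ iv K T, PackQ K M.1 M.2.2 (fun l => Qf l (ix l x0)) B)
    (hc : ∀ x0 ∈ iv K T, ∀ k < K, ∀ i j, Qf k (ix k x0) i j →
      ∑ x ∈ iv k i, ∑ z ∈ iv k j, nsq (v x z) ≤ τ * 4 ^ k) :
    ∑ x0 ∈ iv K T, ∑ x ∈ iv K M.1, ∑ z ∈ iv K M.2.2,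
      κ ^ 2 * nsq (v x z) * ((cq (aq Qf x z) K 0 x0 - lam : ℕ) : ℝ) ≤
        κ ^ 2 * (τ * (1 - 1 / B) ^ lam * B * 8 ^ K) := by
  have h1 := sum_cq_all hB hτ hP hc lam
  have h2 := mul_le_mul_of_nonneg_left h1 (sq_nonneg κ)
  refine le_trans (le_of_eq ?_) h2
  simp only [mul_sum, mul_assoc]
  rfl

/-- **The sum over one root of `x₀`.** -/
theorem sum_EO (he : 0 ≤ e) (h0 : ∀ x0 z x, φ x0 0 z x = 0)
    (hl : ∀ k < K, ∀ j x z, ∑ x0 ∈ iv k j, φ x0 (k + 1) z x ^ 2 ≤ e * 2 ^ k)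
    {al : ℤ → ℕ → ℤ → Prop}
    (hup : ∀ x ∈ iv K M.1, ∀ z ∈ iv K M.2.2, ∀ k < K, al x k z → al x (k + 1) z)
    (hal : ∀ x ∈ iv K M.1, ∀ z ∈ iv K M.2.2, ∀ k ≤ K, ¬ al x k z → ∀ x0, φ x0 k z x = 0)
    {B τ : ℝ} (hB : 1 ≤ B) (hτ : 0 ≤ τ)
    (hP : ∀ x0 ∈ iv K T, PackQ K M.1 M.2.2 (fun l => Qf l (ix l x0)) B)
    (hc : ∀ x0 ∈ iv K T, ∀ k < K, ∀ i j, Qf k (ix k x0) i j →
      ∑ x ∈ iv k i, ∑ z ∈ iv k j, nsq (v x z) ≤ τ * 4 ^ k) {r Y Y' : ℝ}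
    (hR : ∑ x ∈ iv K M.1, ∑ z ∈ iv K M.2.2, ∑ x0 ∈ iv K T,
      nsq (Rm (Mx x) o x (sx x) K 0 x0 z *ᵥ v x z) ≤ r)
    (hS : ∀ (W : ℤ → ℕ → ℤ → ℤ → ℝ) (e : ℝ), 0 ≤ e → (∀ x k x0 z, 0 ≤ W x k x0 z) →
      (∀ x ∈ iv K M.1, ∀ k ≤ K, ∀ j z, ∑ x0 ∈ iv k j, W x k x0 z ≤ e * 2 ^ k) →
      (∀ x ∈ iv K M.1, ∀ z ∈ iv K M.2.2, ∀ k ≤ K, ¬ al x k z → ∀ x0, W x k x0 z = 0) →
      ∑ x ∈ iv K M.1, ∑ z ∈ iv K M.2.2, ∑ k ∈ range (K + 1), ∑ x0 ∈ iv K T, W x k x0 z *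
        nsq ((Rs (Mx x) o x (sx x) K h k x0 (ix k (z - h)) -
          Rm (Mx x) o x (sx x) K k x0 z) *ᵥ v x z) ≤ e * Y)
    (hS' : ∀ (W : ℤ → ℕ → ℤ → ℤ → ℝ) (e : ℝ), 0 ≤ e → (∀ x k x0 z, 0 ≤ W x k x0 z) →
      (∀ x ∈ iv K M.1, ∀ k ≤ K, ∀ j z, ∑ x0 ∈ iv k j, W x k x0 z ≤ e * 2 ^ k) →
      (∀ x ∈ iv K M.1, ∀ z ∈ iv K M.2.2, ∀ k ≤ K, ¬ al x (min (k + 1) K) z → ∀ x0,
        W x k x0 z = 0) →
      ∑ x ∈ iv K M.1, ∑ z ∈ iv K M.2.2, ∑ k ∈ range (K + 1), ∑ x0 ∈ iv K T, W x k x0 z *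
        nsq ((Rs (Mx x) o x (sx x) K h k x0 (ix k (z - h)) -
          Rm (Mx x) o x (sx x) K k x0 z) *ᵥ v x z) ≤ e * Y') :
    ∑ x0 ∈ iv K T, EO Mx o sx K Qf lam φ v κ M h x0 ≤
      ((lam : ℝ) + 2) * e * (16 * r + 2 * Y + 2 * Y') +
        2 * (e * (κ ^ 2 * (τ * (1 - 1 / B) ^ lam * B * 8 ^ K))) := by
  have hcp : ∀ x z, 0 ≤ κ ^ 2 * nsq (v x z) := fun x z =>
    mul_nonneg (sq_nonneg _) (nsq_nonneg _)
  -- line sums of the two weights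
  have hl0 : ∀ x z, ∀ k ≤ K, ∀ j, ∑ x0 ∈ iv k j, wf φ x k x0 z ≤ e * 2 ^ k := by
    intro x z k hk j
    rcases k with _ | k
    · refine le_trans (le_of_eq (sum_eq_zero fun x0 _ => ?_)) (by positivity)
      unfold wf
      rw [h0]
      norm_num
    · have e0 : k + 1 - k = 1 := by omega
      have h1 := H922.iv_iv (Nat.le_succ k) j (fun x0 => wf φ x (k + 1) x0 z)
      simp only [Nat.succ_eq_add_one, e0] at h1
      rw [← h1]
      refine (sum_le_sum fun c _ => hl k (by omega) c x z).trans (le_of_eq ?_)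
      rw [sum_const, card_iv, nsmul_eq_mul]
      push_cast
      ring
  have hl1 : ∀ x z, ∀ k ≤ K, ∀ j, ∑ x0 ∈ iv k j, nx K (wf φ x) k x0 z ≤ e * 2 ^ k := by
    intro x z k hk j
    unfold nx
    by_cases h1 : k < K
    · simp only [h1, if_true]
      exact hl k h1 j x z
    · simp only [h1, if_false, sum_const_zero]
      positivity
  have hY : 0 ≤ Y := by
    have := hS (fun _ _ _ _ => 0) 1 zero_le_one (fun _ _ _ _ => le_rfl)
      (fun _ _ k _ _ _ => by simp only [sum_const_zero]; positivity) (fun _ _ _ _ _ _ _ _ => rfl)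
    simpa using this
  have hY' : 0 ≤ Y' := by
    have := hS' (fun _ _ _ _ => 0) 1 zero_le_one (fun _ _ _ _ => le_rfl)
      (fun _ _ k _ _ _ => by simp only [sum_const_zero]; positivity) (fun _ _ _ _ _ _ _ _ => rfl)
    simpa using this
  have hr : 0 ≤ r := le_trans (sum_nonneg fun x _ => sum_nonneg fun z _ =>
    sum_nonneg fun x0 _ => nsq_nonneg _) hR
  -- main part
  have q1 := hS (fun x k x0 z => up (aq Qf x z) K lam (cW K T z (wf φ x)) k x0)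
    (((lam : ℝ) + 1) * e) (by positivity)
    (fun x k x0 z => up_nonneg (cW_nonneg fun k x0 => wf_nonneg φ x k x0 z) k x0)
    (fun x _ k hk j z => sum_up (cW_nonneg fun k x0 => wf_nonneg φ x k x0 z) he
      (cW_sum he fun k hk j _ => hl0 x z k hk j) hk j)
    (fun x hx z hz k hk hn x0 => up_zero fun l hl' => by
      unfold cW
      split_ifs
      · unfold wf
        rw [hal x hx z hz l (hl'.trans hk)
          (fun h' => hn (al_up (hup x hx z hz) hl' hk h')) x0]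
        norm_num
      · rfl)
  have s1 := sum_EEq (Mx := Mx) (o := o) (sx := sx) (lam := lam) (a := aq Qf) (v := v)
    (cp := fun x z => κ ^ 2 * nsq (v x z)) (W := wf φ) (sh := h) (M := M) he (wf_nonneg φ)
    (fun x _ z _ k hk j _ => hl0 x z k hk j) hcp hR q1
  -- time `k + 1`
  have q2 := hS' (fun x k x0 z => up (anx K (aq Qf x) z) K (lam + 1)
      (cW K T z (nx K (wf φ x))) k x0)
    ((((lam + 1 : ℕ) : ℝ) + 1) * e) (by positivity)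
    (fun x k x0 z => up_nonneg (cW_nonneg fun k x0 => nx_nonneg (wf_nonneg φ x) k x0 z) k x0)
    (fun x _ k hk j z => sum_up (cW_nonneg fun k x0 => nx_nonneg (wf_nonneg φ x) k x0 z) he
      (cW_sum he fun k hk j _ => hl1 x z k hk j) hk j)
    (fun x hx z hz k hk hn x0 => by
      refine up_zero fun l hl' => ?_
      unfold cW nx
      split_ifs with h1 h2
      · unfold wf
        rw [hal x hx z hz (l + 1) (by omega) (fun h' => hn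
          (al_up (hup x hx z hz) (by omega) (by omega) h')) x0]
        norm_num
      · rfl
      · rfl)
  have s2 := sum_EEq (Mx := Mx) (o := o) (sx := sx) (lam := lam + 1)
    (a := fun x => anx K (aq Qf x)) (v := v)
    (cp := fun x z => κ ^ 2 * nsq (v x z)) (W := fun x => nx K (wf φ x)) (sh := h) (M := M) he
    (fun x k x0 z => nx_nonneg (wf_nonneg φ x) k x0 z)
    (fun x _ z _ k hk j _ => hl1 x z k hk j) hcp hR q2
  have t1 := tailO (κ := κ) (lam := lam) hB hτ hP hc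
  have t2 : ∑ x0 ∈ iv K T, ∑ x ∈ iv K M.1, ∑ z ∈ iv K M.2.2,
      κ ^ 2 * nsq (v x z) * ((cq (anx K (aq Qf x) z) K 0 x0 - (lam + 1) : ℕ) : ℝ) ≤
        κ ^ 2 * (τ * (1 - 1 / B) ^ lam * B * 8 ^ K) := by
    refine le_trans (sum_le_sum fun x0 _ => sum_le_sum fun x _ => sum_le_sum fun z _ =>
      mul_le_mul_of_nonneg_left ?_ (hcp x z)) t1
    have h1 := cq_anx K (aq Qf x) z (Nat.zero_le K) x0
    exact_mod_cast (by omega : cq (anx K (aq Qf x) z) K 0 x0 - (lam + 1) ≤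
      cq (aq Qf x z) K 0 x0 - lam)
  have t1' := mul_le_mul_of_nonneg_left t1 he
  have t2' := mul_le_mul_of_nonneg_left t2 he
  have b1 : ((lam : ℝ) + 1) * e ≤ ((lam : ℝ) + 2) * e := by nlinarith
  have b2 := mul_le_mul_of_nonneg_right b1 (by positivity : 0 ≤ 8 * r + 2 * Y)
  unfold EO
  rw [sum_add_distrib]
  push_cast at s2
  have e1 : ((lam : ℝ) + 1 + 1) = (lam : ℝ) + 2 := by ring
  rw [e1] at s2
  nlinarith

end

end Vale.Agent.P141.H224
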