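import Vale.Agent.P141.H224.EnDev
import Vale.Agent.P141.H677.RawFD
import Vale.Agent.P141.H795.RawC

/-!
# P141, line (A): the energies of every slot, raw bounds

* `en_b`, `en_s` : the sum of the energies over one root, blind and signed;
* `fld_en : RawField FEn`.
-/

namespace Vale.Agent.P141.H224

open Finset Matrix
open Vale.Agent.P141.PL (Pt iv ix cb mem_iv ix_ix card_iv mem_cb cx)
open Vale.Agent.P141.H43 (nsq nsq_nonneg)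
open Vale.Agent.P141.H841 (Rm Rs Mc Th1 cJ uJ thH alF)
open Vale.Agent.P141.H64 (Qf)
open Vale.Agent.P141.H677 (KT GT MT kF sN rt)
open Vale.Agent.P141.H677.Sk (av Slt FDs FamA FamV lam1 SlotN SDat RawField FEn cst)

noncomputable section

open scoped Classical

set_option linter.unusedSectionVars false

variable {ι : Type} [Fintype ι] [DecidableEq ι]

/-- `lam1 / (2 l)` -/
theorem w_le {q : H401.Num} {s r : ℝ} (ht : 0 < q.t) (ht1 : q.t ≤ 1) (he : 0 ≤ q.e0)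
    (hs : 0 < s) (hr : 1 ≤ r) : lam1 q s r / (2 * q.lam s r) ≤ (q.t / r) ^ (-10 : ℝ) := by
  have hr0 : 0 < r := by linarith
  have hl := H401.Num.lam_pos (p := q) ht hs hr
  rw [div_le_iff₀ (by positivity), Real.div_rpow ht.le hr0.le]
  unfold H677.Sk.lam1 H401.Num.lam
  have e1 : q.t ^ (-10 : ℝ) / r ^ (-10 : ℝ) * (2 * (q.t ^ (2 - q.e0) * √s * r ^ q.e0)) =
      2 * (√s * ((q.t ^ (-10 : ℝ) * q.t ^ (2 - q.e0)) * (r ^ (10 : ℝ) * r ^ q.e0))) := by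
    rw [Real.rpow_neg hr0.le 10, div_inv_eq_mul]
    ring
  rw [e1, ← Real.rpow_add ht, ← Real.rpow_add hr0]
  have h1 : q.t ^ (-8 : ℝ) ≤ q.t ^ (-10 + (2 - q.e0)) :=
    Real.rpow_le_rpow_of_exponent_ge ht ht1 (by linarith)
  have h2 : r ^ (8 : ℝ) ≤ r ^ (10 + q.e0) :=
    Real.rpow_le_rpow_of_exponent_le hr (by linarith)
  have p1 := Real.rpow_pos_of_pos ht (-8 : ℝ)
  have p2 := Real.rpow_pos_of_pos hr0 (8 : ℝ)
  have p3 := Real.sqrt_nonneg s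
  have h3 := mul_le_mul_of_nonneg_left (mul_le_mul h1 h2 p2.le (p1.le.trans h1)) p3
  have h4 : 0 ≤ √s * (q.t ^ (-8 : ℝ) * r ^ (8 : ℝ)) := by positivity
  calc q.t ^ (-8 : ℝ) * √s * r ^ (8 : ℝ) = √s * (q.t ^ (-8 : ℝ) * r ^ (8 : ℝ)) := by ring
    _ ≤ √s * (q.t ^ (-10 + (2 - q.e0)) * r ^ (10 + q.e0)) := h3
    _ ≤ 2 * (√s * (q.t ^ (-10 + (2 - q.e0)) * r ^ (10 + q.e0))) := by linarith

/-- the numbers of the time and the class -/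
theorem y_bd {t r : ℝ} (ht : 0 < t) (ht1 : t ≤ 1) (hr : 1 ≤ r) :
    0 < (t / r) ^ (-12 : ℝ) ∧ (t / r) ^ (-10 : ℝ) ≤ (t / r) ^ (-12 : ℝ) ∧
    (t / r) ^ (-10 : ℝ) * ((r / t) ^ 2 / 2) ≤ (t / r) ^ (-12 : ℝ) ∧
    ∀ d : ℝ, d ≤ 1 → t ^ (-d) ≤ (t / r) ^ (-12 : ℝ) := by
  have hr0 : 0 < r := by linarith
  have hy : 0 < t / r := div_pos ht hr0
  have hyt : t / r ≤ t := div_le_self ht.le hr
  have hy1 : t / r ≤ 1 := hyt.trans ht1
  have h12 := Real.rpow_pos_of_pos hy (-12 : ℝ)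
  have h10 := Real.rpow_pos_of_pos hy (-10 : ℝ)
  refine ⟨h12, Real.rpow_le_rpow_of_exponent_ge hy hy1 (by norm_num), ?_, fun d hd => ?_⟩
  · have e1 : (r / t) ^ 2 = (t / r) ^ (-2 : ℝ) := by
      rw [Real.rpow_neg hy.le, Real.rpow_two, ← inv_pow, inv_div]
    have e2 : (t / r) ^ (-12 : ℝ) = (t / r) ^ (-10 : ℝ) * (t / r) ^ (-2 : ℝ) := by
      rw [← Real.rpow_add hy]
      norm_num
    rw [e1, e2]
    have h2 := Real.rpow_pos_of_pos hy (-2 : ℝ)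
    exact mul_le_mul_of_nonneg_left (by linarith) h10.le
  · have h1 : t ^ (-d) ≤ t ^ (-12 : ℝ) :=
      Real.rpow_le_rpow_of_exponent_ge ht ht1 (by linarith)
    exact h1.trans (Real.rpow_le_rpow_of_nonpos hy hyt (by norm_num))

/-- the constant -/
def Bc (cP L : ℝ) : ℝ :=
  ((((⌈max 1 cP⌉₊ : ℕ) : ℝ) + 2) * 10368 + 8 * max 1 cP) * L

theorem Bc_one {cP L : ℝ} (hL : 1 ≤ L) : 1 ≤ Bc cP L := by
  unfold Bc
  have h1 : (1 : ℝ) ≤ max 1 cP := le_max_left _ _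
  have h2 : (0 : ℝ) ≤ ((⌈max 1 cP⌉₊ : ℕ) : ℝ) := Nat.cast_nonneg _
  nlinarith

section data

variable {q : H401.Num} {n : ℕ} {ez : ℝ} {F1 F2 F3 : ℕ → Pt → ℝ} {o : ℤ} {K : ℕ} {x : Pt}
  {s r : ℝ} {U : PL.H315.Tri} {g : ℤ → ℤ → ℝ} {u v : ℤ → ℤ → ι → ℝ} {A : FamA}
  {b C : FamV ι} {R : Slt ι} {κ E : ℝ} {Q1 Q2 Q3 : ℕ → Pt → Prop} {v' : ℤ → ℤ → ι → ℝ}
  {sx : ℤ → ℕ → ℤ → ℤ → ℝ}

theorem en_b (hS : SDat q n ez F1 F2 F3 o K x s r U g u v A b C R κ E)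
    (D : FDs q n ez F1 F2 F3 K x s r U g u v A b C Q1 Q2 Q3 v')
    (hs1 : ∀ x1 k a b, |sx x1 k a b| ≤ 1)
    (hs0 : ∀ x1 k a b,
      ((b, o - 2 - a - ix k x1 - b, ix k x1) : Pt) ∉ sN (q.al U K) o K (cx K x) (2 ^ k * a) k →
      sx x1 k a b = 0)
    (hR : ∀ x0 j z x1, R x0 j z x1 =
      Rm (MT (q.lam s r) (KT (q.lam s r) u x1)) o x1 (sx x1) K j x0 z) (T h : ℤ) (L : ℕ) :
    ∑ x0 ∈ iv K T, Emx R C K (cx K x) h x0 ≤ ez * s * 8 ^ K * (Bc q.cP q.L *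
      (1 + (L : ℝ)) ^ 4 * (q.t ^ (-q.c) * (q.t / r) ^ q.e0 +
        (1 + κ) ^ 2 * (q.t / r) ^ (-12 : ℝ) / 2 ^ L)) := by
  have ht := hS.t0
  have hs := hS.s0
  have hr := hS.r1
  have hr0 : 0 < r := by linarith
  have hl := H401.Num.lam_pos (p := q) ht hs hr
  have Cl := hS.cls.toCls
  have hez : 0 ≤ ez := hS.hF2.1
  have hv := H841.v'_le D
  have hL0 : 0 < q.L := by linarith [hS.L1]
  have htc := Real.rpow_pos_of_pos ht (2 - q.c)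
  have hP : 0 ≤ q.L * q.t ^ (2 - q.c) * √s := by positivity
  have hV0 : 0 ≤ lam1 q s r := by
    unfold H677.Sk.lam1
    have h1 := Real.rpow_pos_of_pos ht (-8 : ℝ)
    have h2 := Real.rpow_pos_of_pos hr0 (8 : ℝ)
    positivity
  obtain ⟨y0, y1, _, y3⟩ := y_bd ht hS.t1 hr
  have hw := w_le ht hS.t1 hS.e00.le hs hr
  have key := Emx_sum (T := T) (h := h) D hS.hK Cl hez hs ht hs0 hR hS.slt.cap
    (end_b Cl hl hP hv hS.ho hs1)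
    (dev_b Cl hl hP hv hS.ho hs1 hV0 (fun x1 hx1 => H841.fibF D hx1) L)
    (dev_b Cl hl hP hv hS.ho hs1 (by positivity : 0 ≤ 2 * lam1 q s r)
      (fun x1 hx1 => fibN D hV0 hx1) L) (⌈max 1 q.cP⌉₊ * L)
  rw [H677.Sk.m_eq ht hs hr] at key
  set p : ℝ := q.L / 2 * (q.t ^ (-q.c) * (q.t / r) ^ q.e0) with hp
  have hb0 : 0 ≤ q.t ^ (-q.c) * (q.t / r) ^ q.e0 := by
    have h1 := Real.rpow_pos_of_pos ht (-q.c)
    have h2 := Real.rpow_pos_of_pos (div_pos ht hr0) q.e0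
    positivity
  have hLm : 0 ≤ q.Lm := (Real.rpow_pos_of_pos ht _).le
  have k1 : κ ^ 2 * q.Lm ≤ (1 + κ) ^ 2 * (q.t / r) ^ (-12 : ℝ) :=
    mul_le_mul (by nlinarith [hS.κ1]) (y3 q.d hS.d1) hLm (by positivity)
  have k2 : (q.t / r) ^ (-12 : ℝ) ≤ (1 + κ) ^ 2 * (q.t / r) ^ (-12 : ℝ) :=
    le_mul_of_one_le_left y0.le (by nlinarith [hS.κ1])
  have nb := num_b (m0 := ⌈max 1 q.cP⌉₊) (L := L) (B := max 1 q.cP) (p := p)
    (w := lam1 q s r / (2 * q.lam s r)) (κ := κ) (Lm := q.Lm) (Lc := q.L)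
    (y1 := q.t ^ (-q.c) * (q.t / r) ^ q.e0) (z := (1 + κ) ^ 2 * (q.t / r) ^ (-12 : ℝ))
    (le_max_left _ _) (Nat.le_ceil _) (by positivity) (by positivity) hLm hS.L1 hb0
    (by rw [hp]; nlinarith [mul_nonneg hL0.le hb0]) (hw.trans (y1.trans k2)) k1
  have hD0 : 0 ≤ ez * s * 8 ^ K := by positivity
  refine key.trans ?_
  have nb' := mul_le_mul_of_nonneg_left nb hD0
  refine le_trans (le_of_eq ?_) nb'
  ring

theorem en_s (hS : SDat q n ez F1 F2 F3 o K x s r U g u v A b C R κ E)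
    (D : FDs q n ez F1 F2 F3 K x s r U g u v A b C Q1 Q2 Q3 v')
    (hs1 : ∀ x1 k a b, |sx x1 k a b| ≤ 1)
    (hs0 : ∀ x1 k a b,
      ((b, o - 2 - a - ix k x1 - b, ix k x1) : Pt) ∉ sN (q.al U K) o K (cx K x) (2 ^ k * a) k →
      sx x1 k a b = 0)
    (hR : ∀ x0 j z x1, R x0 j z x1 =
      Rm (MT (q.lam s r) (KT (q.lam s r) u x1)) o x1 (sx x1) K j x0 z) (T h : ℤ) (L : ℕ)
    {δ : ℝ} (hδ : 0 < δ) :
    ∑ x0 ∈ iv K T, Emx R C K (cx K x) h x0 ≤ ez * s * 8 ^ K * (Bc q.cP q.L *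
      (1 + (L : ℝ)) ^ 4 * (δ + (q.t / r) ^ (-12 : ℝ) * E / δ + E +
        (1 + κ) ^ 2 * (q.t / r) ^ (-12 : ℝ) * (1 + 1 / δ) / 2 ^ L)) := by
  have ht := hS.t0
  have hs := hS.s0
  have hr := hS.r1
  have hr0 : 0 < r := by linarith
  have hl := H401.Num.lam_pos (p := q) ht hs hr
  have Cl := hS.cls.toCls
  have hez : 0 ≤ ez := hS.hF2.1
  have hv := H841.v'_le D
  have hE := hS.E0.le
  have hV0 : 0 ≤ lam1 q s r := by
    unfold H677.Sk.lam1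
    have h1 := Real.rpow_pos_of_pos ht (-8 : ℝ)
    have h2 := Real.rpow_pos_of_pos hr0 (8 : ℝ)
    positivity
  obtain ⟨y0, y1, y2, y3⟩ := y_bd ht hS.t1 hr
  have hw := w_le ht hS.t1 hS.e00.le hs hr
  have hΘ := H841.Th_le hS.cls ht hl
    (H677.Sk.lam_row ht hS.t1 hS.e00 hs hr hS.e01)
  have HN : ∀ x1 ∈ iv K (cx K x).1, H64.HypN (Mc (q.lam s r) K (cx K x).2.1 u x1) o x1 T
      (cx K x).2.2 K (sx x1) (cJ (q.lam s r) K (cx K x).2.1) (uJ K (cx K x).2.1 u x1)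
      (thH (Mc (q.lam s r) K (cx K x).2.1 u x1)) (Th1 (q.lam s r) K (cx K x).2.1 u x1)
      (Th1 (q.lam s r) K (cx K x).2.1 u x1) E :=
    fun x1 hx1 => H841.hypN_slot hl hS.ho hs1 hs0 hR hE hS.slt.en hx1 T
  have key := Emx_sum (T := T) (h := h) D hS.hK Cl hez hs ht hs0 hR hS.slt.cap
    (end_s Cl hv hE HN)
    (dev_s Cl hl hv HN hV0 (fun x1 hx1 => H841.fibF D hx1) hE hδ hΘ L)
    (dev_s Cl hl hv HN (by positivity : 0 ≤ 2 * lam1 q s r)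
      (fun x1 hx1 => fibN D hV0 hx1) hE hδ hΘ L) (⌈max 1 q.cP⌉₊ * L)
  have hLm : 0 ≤ q.Lm := (Real.rpow_pos_of_pos ht _).le
  have k1 : κ ^ 2 * q.Lm ≤ (1 + κ) ^ 2 * (q.t / r) ^ (-12 : ℝ) :=
    mul_le_mul (by nlinarith [hS.κ1]) (y3 q.d hS.d1) hLm (by positivity)
  have k2 : (q.t / r) ^ (-12 : ℝ) ≤ (1 + κ) ^ 2 * (q.t / r) ^ (-12 : ℝ) :=
    le_mul_of_one_le_left y0.le (by nlinarith [hS.κ1])
  have hΘ0 : 0 ≤ (r / q.t) ^ 2 / 2 := by positivity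
  have nb := num_s (m0 := ⌈max 1 q.cP⌉₊) (L := L) (B := max 1 q.cP)
    (w := lam1 q s r / (2 * q.lam s r)) (κ := κ) (Lm := q.Lm) (Lc := q.L)
    (z := (1 + κ) ^ 2 * (q.t / r) ^ (-12 : ℝ)) (z1 := (q.t / r) ^ (-12 : ℝ)) (δ := δ) (E := E)
    (Θ := (r / q.t) ^ 2 / 2) (le_max_left _ _) (Nat.le_ceil _) (by positivity) hLm hS.L1 hδ hE
    hΘ0 (hw.trans y1) ((mul_le_mul_of_nonneg_right hw hΘ0).trans y2) k2 k1
  have hD0 : 0 ≤ ez * s * 8 ^ K := by positivity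
  refine key.trans ?_
  have nb' := mul_le_mul_of_nonneg_left nb hD0
  refine le_trans (le_of_eq ?_) nb'
  ring

end data

/-- **The energies, raw bounds.** -/
theorem fld_en : RawField FEn := by
  refine ⟨4, 12, 12, fun p => H795.RC.cA (3 * Bc p.cP p.L) 4, ?_⟩
  intro ι _ _ q n ez F1 F2 F3 o K x s r U g u v A b C R κ E hS h _
  obtain ⟨Q1, Q2, Q3, v', D⟩ := hS.dat
  obtain ⟨sx, hs1, hs0, hR⟩ := hS.slt.sgn
  have hB := Bc_one (cP := q.cP) hS.L1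
  have hr0 : 0 < r := by linarith [hS.r1]
  have hez : 0 ≤ ez := hS.hF2.1
  have hs := hS.s0
  have hb : 0 ≤ q.t ^ (-q.c) := Real.rpow_nonneg hS.t0.le _
  refine ⟨fun x0 => Emx R C K (cx K x) h.2.2 x0, fun x0 => Emx_nonneg, ?_,
    fun t _ x0 _ k hk j hj hjk => le_Emx hk hj hjk⟩
  refine H795.RC.raw_const (B := 3 * Bc q.cP q.L) (by linarith) hb (div_pos hS.t0 hr0)
    hS.E0.le (by positivity) (fun L => ?_) (fun L δ hδ => ?_)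
  · refine (sum_le_sum fun T _ => en_b hS D hs1 hs0 hR T h.2.2 L).trans (le_of_eq ?_)
    rw [sum_const, card_rt, nsmul_eq_mul]
    push_cast
    ring
  · refine (sum_le_sum fun T _ => en_s hS D hs1 hs0 hR T h.2.2 L hδ).trans (le_of_eq ?_)
    rw [sum_const, card_rt, nsmul_eq_mul]
    push_cast
    ring

end

end Vale.Agent.P141.H224
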