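import Vale.Agent.P141.H224.EnC
import Vale.Agent.P141.H841.SlotB

/-!
# P141, line (A): the number of the energies of one slot, class data

`Emx` : the largest energy at `x₀` over all scales and times; `Emx_sum` : its sum over one root
from any bound `Y`, `Y'` of the deviations; `dev_s`, `dev_b` : signed and blind deviations;
`en_s`, `en_b` : the sum over the three roots, signed and blind, free number of levels `lam`.
-/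

namespace Vale.Agent.P141.H224

open Finset Matrix
open Vale.Agent.P141.PL (Pt iv ix cb mem_iv ix_ix card_iv mem_cb cx)
open Vale.Agent.P141.H43 (nsq nsq_nonneg)
open Vale.Agent.P141.H841 (Rm Rs Mc Th1 cJ uJ thH alF)
open Vale.Agent.P141.H64 (Qf)
open Vale.Agent.P141.H677 (KT GT MT kF sN rt)
open Vale.Agent.P141.H677.Sk (av Slt FDs FamA FamV lam1 SlotN)
open Vale.Agent.P141.H958 (PackQ)

noncomputable section

open scoped Classical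

set_option linter.unusedSectionVars false

variable {ι : Type} [Fintype ι] [DecidableEq ι]

theorem iv_eq (k : ℕ) (m : ℤ) : iv k m = Ico (2 ^ k * m) (2 ^ k * m + 2 ^ k) := rfl

/-- the cap of the averaged slot -/
theorem cap_av {R : Slt ι} {κ : ℝ} {K : ℕ}
    (hcap : ∀ x0, ∀ j ≤ K, ∀ z x1 w, nsq (R x0 j z x1 *ᵥ w) ≤ κ ^ 2 * nsq w)
    (h x0 : ℤ) (k : ℕ) (z x : ℤ) (w : ι → ℝ) :
    nsq (av R h x0 k z x *ᵥ w) ≤ κ ^ 2 * nsq w := by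
  unfold H677.Sk.av
  rw [smul_mulVec, Matrix.sum_mulVec, iv_eq]
  exact H841.nsq_avg_le k _ (fun p => R x0 0 (p + h) x *ᵥ w)
    fun p _ => hcap x0 0 (Nat.zero_le K) (p + h) x w

/-- **The largest energy at `x₀`.** -/
def Emx (R : Slt ι) (C : FamV ι) (K : ℕ) (M : Pt) (h x0 : ℤ) : ℝ :=
  ((range (K + 1)) ×ˢ (range (K + 2))).sup' ⟨(0, 0), by simp⟩ fun p =>
    if p.2 ≤ K ∧ p.2 ≤ p.1 + 1 then ∑ x ∈ iv K M.1, ∑ z ∈ iv K M.2.2,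
      nsq (av R h x0 p.1 z x *ᵥ C x0 p.2 z x) else 0

variable {R : Slt ι} {C : FamV ι} {K : ℕ} {M : Pt} {h x0 : ℤ}

theorem le_Emx {k j : ℕ} (hk : k ≤ K) (hj : j ≤ K) (hjk : j ≤ k + 1) :
    ∑ x ∈ iv K M.1, ∑ z ∈ iv K M.2.2, nsq (av R h x0 k z x *ᵥ C x0 j z x) ≤
      Emx R C K M h x0 := by
  unfold Emx
  refine Finset.le_sup'_of_le _ (b := (k, j)) ?_ ?_
  · rw [mem_product, mem_range, mem_range]
    exact ⟨by omega, by omega⟩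
  · simp only
    rw [if_pos ⟨hj, hjk⟩]

theorem Emx_nonneg : 0 ≤ Emx R C K M h x0 :=
  le_trans (sum_nonneg fun _ _ => sum_nonneg fun _ _ => nsq_nonneg _)
    (le_Emx (Nat.zero_le K) (Nat.zero_le K) (Nat.zero_le _))

theorem Emx_le {B : ℝ} (hB : 0 ≤ B) (H : ∀ k ≤ K, ∀ j ≤ K, j ≤ k + 1 →
    ∑ x ∈ iv K M.1, ∑ z ∈ iv K M.2.2, nsq (av R h x0 k z x *ᵥ C x0 j z x) ≤ B) :
    Emx R C K M h x0 ≤ B := by
  unfold Emx
  refine Finset.sup'_le _ _ fun p hp => ?_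
  rw [mem_product, mem_range, mem_range] at hp
  split_ifs with h1
  · exact H p.1 (by omega) p.2 h1.1 h1.2
  · exact hB

/-- the bound of the deviations for every weight -/
def SS (Mx : ℤ → ℕ → ℤ → Matrix ι ι ℝ) (o : ℤ) (sx : ℤ → ℕ → ℤ → ℤ → ℝ) (K : ℕ)
    (v : ℤ → ℤ → ι → ℝ) (M : Pt) (T h : ℤ) (al : ℤ → ℕ → ℤ → Prop) (Y : ℝ) : Prop :=
  ∀ (W : ℤ → ℕ → ℤ → ℤ → ℝ) (e : ℝ), 0 ≤ e → (∀ x k x0 z, 0 ≤ W x k x0 z) →
      (∀ x ∈ iv K M.1, ∀ k ≤ K, ∀ j z, ∑ x0 ∈ iv k j, W x k x0 z ≤ e * 2 ^ k) →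
      (∀ x ∈ iv K M.1, ∀ z ∈ iv K M.2.2, ∀ k ≤ K, ¬ al x k z → ∀ x0, W x k x0 z = 0) →
      ∑ x ∈ iv K M.1, ∑ z ∈ iv K M.2.2, ∑ k ∈ range (K + 1), ∑ x0 ∈ iv K T, W x k x0 z *
        nsq ((Rs (Mx x) o x (sx x) K h k x0 (ix k (z - h)) -
          Rm (Mx x) o x (sx x) K k x0 z) *ᵥ v x z) ≤ e * Y

section data

variable {q : H401.Num} {n : ℕ} {ez : ℝ} {F1 F2 F3 : ℕ → Pt → ℝ} {x : Pt} {s r : ℝ}
  {U : PL.H315.Tri} {g : ℤ → ℤ → ℝ} {u v : ℤ → ℤ → ι → ℝ} {A : FamA}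
  {b : FamV ι} {Q1 Q2 Q3 : ℕ → Pt → Prop} {v' : ℤ → ℤ → ι → ℝ}
  {o : ℤ} {Al : ℕ → Pt → Prop} {κ E P l : ℝ} {sx : ℤ → ℕ → ℤ → ℤ → ℝ} {T : ℤ}

/-- the live scales one above -/
def alN (q : H401.Num) (K : ℕ) (x : Pt) (U : PL.H315.Tri) (x1 : ℤ) (k : ℕ) (y : ℤ) : Prop :=
  alF q K x U x1 (min (k + 1) K) y

theorem iv_cx {K : ℕ} {m : ℤ} {y : ℤ} (hy : y ∈ iv K (ix K m)) : y ∈ PL.H315.iv K m := by
  rw [H769.iv_pt]
  exact hy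

/-- **The sum over one root from the deviations.** -/
theorem Emx_sum (D : FDs q n ez F1 F2 F3 K x s r U g u v A b C Q1 Q2 Q3 v') (hK : K ≤ n)
    (Cl : H305.Cls K x s r P U g u v) (hez : 0 ≤ ez) (hs : 0 < s) (ht : 0 < q.t)
    (hs0 : ∀ x1 k a b,
      ((b, o - 2 - a - ix k x1 - b, ix k x1) : Pt) ∉ sN Al o K (cx K x) (2 ^ k * a) k →
      sx x1 k a b = 0)
    (hR : ∀ x0 j z x1, R x0 j z x1 = Rm (MT l (KT l u x1)) o x1 (sx x1) K j x0 z)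
    (hcap : ∀ x0, ∀ j ≤ K, ∀ z x1 w, nsq (R x0 j z x1 *ᵥ w) ≤ κ ^ 2 * nsq w) {r0 Y Y' : ℝ}
    (hr0 : ∑ x1 ∈ iv K (cx K x).1, ∑ z ∈ iv K (cx K x).2.2, ∑ x0 ∈ iv K T,
      nsq (Rm (Mc l K (cx K x).2.1 u x1) o x1 (sx x1) K 0 x0 z *ᵥ v' x1 z) ≤ r0)
    (hS : SS (fun x1 => Mc l K (cx K x).2.1 u x1) o sx K v' (cx K x) T h (alF q K x U) Y)
    (hS' : SS (fun x1 => Mc l K (cx K x).2.1 u x1) o sx K v' (cx K x) T h (alN q K x U) Y')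
    (lam : ℕ) :
    ∑ x0 ∈ iv K T, Emx R C K (cx K x) h x0 ≤
      ((lam : ℝ) + 2) * ez * (16 * r0 + 2 * Y + 2 * Y') +
        2 * (ez * (κ ^ 2 * (4 * q.Lm * s * (1 - 1 / max 1 q.cP) ^ lam * max 1 q.cP *
          8 ^ K))) := by
  have hLm : 0 ≤ q.Lm := (Real.rpow_pos_of_pos ht _).le
  have hvle : ∀ x1 ∈ iv K (cx K x).1, ∀ z ∈ iv K (cx K x).2.2,
      nsq (v' x1 z) ≤ U.2.1 (x1, z) ^ 2 := fun x1 hx1 z hz =>
    (H841.v'_le D x1 z).trans (Cl.v_le x1 (iv_cx hx1) z (iv_cx hz))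
  have a1 : ∀ x0 ∈ iv K T, Emx R C K (cx K x) h x0 ≤
      EO (fun x1 => Mc l K (cx K x).2.1 u x1) o sx K
        (Qa q.Lm U.2.1 K Q2 (cx K x).1 (cx K x).2.2) lam
        (fun x0 k z x' => kF q.Lm U.2.1 K F2 k (x0, x', z)) v' κ (cx K x) h x0 := by
    intro x0 _
    refine Emx_le (EO_nonneg x0) fun k hk j hj hjk => ?_
    have b1 := en_org (Mx := fun x1 => Mc l K (cx K x).2.1 u x1) (o := o) (sx := sx) (K := K)
      (Qf := Qa q.Lm U.2.1 K Q2 (cx K x).1 (cx K x).2.2) (lam := lam)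
      (φ := fun x0 k z x' => kF q.Lm U.2.1 K F2 k (x0, x', z)) (v := v') (κ := κ)
      (M := cx K x) (C := C) (h := h) (x0 := x0) (j := j) (k := k)
      (fun x0 k z x' => D.C_eq x0 k z x')
      (fun x1 hx1 z hz k hk hn => hm_kF D.B2 hK hx1 hz hk hn)
      (fun x1 _ z _ k _ => by
        rw [← H841.av_cut hs0 hR]
        exact cap_av hcap h x0 k z x1 (v' x1 z)) hk hj hjk
    refine le_trans (le_of_eq (sum_congr rfl fun x1 _ => sum_congr rfl fun z _ => ?_)) b1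
    rw [H841.av_cut hs0 hR]
  refine (sum_le_sum a1).trans ?_
  have c0 : ∀ x0 z x' : ℤ, kF q.Lm U.2.1 K F2 0 (x0, x', z) = 0 := by
    intro x0 z x'
    unfold H677.kF
    exact if_pos (Or.inl rfl)
  have c1 : ∀ k < K, ∀ j x' z : ℤ, ∑ x0 ∈ iv k j, kF q.Lm U.2.1 K F2 (k + 1) (x0, x', z) ^ 2 ≤
      ez * 2 ^ k := fun k hk j x' z => line_kF D.B2 hK hk j x' z
  have c2 : ∀ x1 ∈ iv K (cx K x).1, ∀ z ∈ iv K (cx K x).2.2, ∀ k < K,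
      alF q K x U x1 k z → alF q K x U x1 (k + 1) z := fun x1 _ => H841.upF q K x U x1
  have c3 : ∀ x1 ∈ iv K (cx K x).1, ∀ z ∈ iv K (cx K x).2.2, ∀ k ≤ K,
      ¬ alF q K x U x1 k z → ∀ x0, kF q.Lm U.2.1 K F2 k (x0, x1, z) = 0 := by
    intro x1 _ z hz k _ hn x0
    unfold H677.kF
    refine if_pos (Or.inr ?_)
    by_contra h1
    exact hn ⟨mem_iv.1 hz, h1⟩
  have c4 : ∀ x0 ∈ iv K T, PackQ K (cx K x).1 (cx K x).2.2
      (fun m => Qa q.Lm U.2.1 K Q2 (cx K x).1 (cx K x).2.2 m (ix m x0)) (max 1 q.cP) :=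
    fun x0 _ => pack_Qa D.B2 hK x0 _ _
  have c5 : ∀ x0 ∈ iv K T, ∀ k < K, ∀ i j,
      Qa q.Lm U.2.1 K Q2 (cx K x).1 (cx K x).2.2 k (ix k x0) i j →
      ∑ x' ∈ iv k i, ∑ z ∈ iv k j, nsq (v' x' z) ≤ 4 * q.Lm * s * 4 ^ k :=
    fun x0 _ k hk i j hq => mass_Qa hLm rfl rfl Cl.U_v2 hvle hk hq
  exact sum_EO (Mx := fun x1 => Mc l K (cx K x).2.1 u x1) (o := o) (sx := sx) (K := K)
    (Qf := Qa q.Lm U.2.1 K Q2 (cx K x).1 (cx K x).2.2) (lam := lam)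
    (φ := fun x0 k z x' => kF q.Lm U.2.1 K F2 k (x0, x', z)) (v := v') (κ := κ) (M := cx K x)
    (h := h) (T := T) (r := r0) (Y := Y) (Y' := Y') hez c0 c1 c2 c3 (le_max_left 1 q.cP)
    (by positivity) c4 c5 hr0 hS hS'

end data

end

end Vale.Agent.P141.H224
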