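import Vale.Agent.P141.H224.SupLoc
import Vale.Agent.P141.H483.QSh

/-!
# P141, line (A): the energies of all scales at one point `x₀`, one shifted grid

Letters of `H483.QSh`: `C x₀ k z x = φ x₀ k z x • v x z`, any label matrices `Mx`, any signs `sx`.
`a x z l i` : the cell `i` of `x₀` of scale `l` is affected at the point `(x, z)`.

* `EE`, `en_all` : one number at `x₀` above the energies of the slot of every scale `k ≤ K` on the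
  functions of every time `j ≤ k`; `en_next` : time `j + 1`;
* `MM`, `mm_all` : the same for the mass;
* `sum_EE`, `sum_MM` : the sums over `x₀`; `sum_EEq` : with any bound of the deviations;
* `sum_cq_all` : the tail by the packing of the affected squares.

All the hypotheses are on the root `M` only.
-/

namespace Vale.Agent.P141.H224

open Finset Matrix
open Vale.Agent.P141.PL (Pt iv ix hs mem_iv ix_ix card_iv)
open Vale.Agent.P141.H43 (nsq nsq_nonneg)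
open Vale.Agent.P141.H841 (Rm Rs ep)
open Vale.Agent.P141.H876 (En)
open Vale.Agent.P141.H444.FD (farA)
open Vale.Agent.P141.H747 (shC)
open Vale.Agent.P141.H483 (Rx)

noncomputable section

open scoped Classical

section

variable {ι : Type} [Fintype ι] [DecidableEq ι]

/-- the squares of the scalar factors, as weights -/
def wf (φ : ℤ → ℕ → ℤ → ℤ → ℝ) (x : ℤ) (k : ℕ) (x0 z : ℤ) : ℝ := φ x0 k z x ^ 2

theorem wf_nonneg (φ : ℤ → ℕ → ℤ → ℤ → ℝ) (x : ℤ) (k : ℕ) (x0 z : ℤ) : 0 ≤ wf φ x k x0 z :=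
  sq_nonneg _

/-- **the number at `x₀`**, energies -/
def EE (Mx : ℤ → ℕ → ℤ → Matrix ι ι ℝ) (o : ℤ) (sx : ℤ → ℕ → ℤ → ℤ → ℝ) (K : ℕ)
    (a : ℤ → ℤ → ℕ → ℤ → Prop) (lam : ℕ) (W : ℤ → ℕ → ℤ → ℤ → ℝ) (v : ℤ → ℤ → ι → ℝ)
    (cp : ℤ → ℤ → ℝ) (M : Pt) (sh x0 : ℤ) : ℝ :=
  ∑ x ∈ iv K M.1, ∑ z ∈ iv K M.2.2,
    eQ (Mx x) o x (sx x) K (a x) lam (W x) sh z (v x z) (cp x z) x0

/-- **the number at `x₀`**, masses -/
def MM (K : ℕ) (a : ℤ → ℤ → ℕ → ℤ → Prop) (lam : ℕ) (W : ℤ → ℕ → ℤ → ℤ → ℝ) (v : ℤ → ℤ → ι → ℝ)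
    (M : Pt) (x0 : ℤ) : ℝ :=
  ∑ x ∈ iv K M.1, ∑ z ∈ iv K M.2.2,
    (up (a x z) K lam (fun k x0 => W x k x0 z) K x0 +
      tl (a x z) K lam (fun k x0 => W x k x0 z) x0) * nsq (v x z)

variable {Mx : ℤ → ℕ → ℤ → Matrix ι ι ℝ} {o : ℤ} {sx : ℤ → ℕ → ℤ → ℤ → ℝ} {K lam : ℕ}
variable {a : ℤ → ℤ → ℕ → ℤ → Prop} {φ : ℤ → ℕ → ℤ → ℤ → ℝ} {v : ℤ → ℤ → ι → ℝ}
variable {C : ℤ → ℕ → ℤ → ℤ → ι → ℝ} {cp : ℤ → ℤ → ℝ}

/-- **The energies of every scale `k`, functions of every time `j ≤ k`, at one `x₀`.** -/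
theorem en_all (M s : Pt) (R1 R3 : ℤ) (hC : ∀ x0 k z x, C x0 k z x = φ x0 k z x • v x z) {x0 : ℤ}
    (hm : ∀ x ∈ iv K M.1, ∀ z ∈ iv K M.2.2, ∀ k < K, ¬ a x z k (ix k x0) →
      φ x0 k z x ^ 2 ≤ φ x0 (k + 1) z x ^ 2) (hcp0 : ∀ x z, 0 ≤ cp x z)
    (hcp : ∀ x ∈ iv K M.1, ∀ z ∈ iv K M.2.2, ∀ k ≤ K, ∀ j ≤ k, φ x0 j z x ≠ 0 →
      nsq (Rs (Mx x) o x (sx x) K s.2.2 k x0 (ix k (z - s.2.2)) *ᵥ v x z) ≤ cp x z)
    {j k : ℕ} (hj : j ≤ k) (hk : k ≤ K) :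
    ∑ x ∈ iv K R1, ∑ z ∈ iv K R3,
        nsq (Rx Mx o sx K s.2.2 s.1 x0 k (ix k z) x *ᵥ shC K M s (C x0) j z x) ≤
      EE Mx o sx K a lam (wf φ) v cp M s.2.2 x0 := by
  refine (H483.num_R M s R1 R3 x0 (C x0) k j).trans ?_
  unfold EE
  refine sum_le_sum fun x hx => sum_le_sum fun z hz => ?_
  rw [hC, mulVec_smul, H841.nsq_smul]
  exact le_eQ_loc (Mx := Mx x) (o := o) (x1 := x) (s := sx x) (lam := lam) (a := a x)
    (W := wf φ x) (fun k => wf_nonneg φ x k x0 z) (fun k hk hn => hm x hx z hz k hk hn) s.2.2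
    hj hk (v x z) (hcp0 x z) (by
      unfold wf
      by_cases h0 : φ x0 j z x = 0
      · rw [h0]; simp
      · rw [mul_comm (cp x z)]
        exact mul_le_mul_of_nonneg_left (hcp x hx z hz k hk j hj h0) (sq_nonneg _))

/-- **The same for the functions of the time `j + 1`**, `j ≤ k < K`. -/
theorem en_next (M s : Pt) (R1 R3 : ℤ) (hC : ∀ x0 k z x, C x0 k z x = φ x0 k z x • v x z) {x0 : ℤ}
    (hm : ∀ x ∈ iv K M.1, ∀ z ∈ iv K M.2.2, ∀ k < K, ¬ a x z k (ix k x0) →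
      φ x0 k z x ^ 2 ≤ φ x0 (k + 1) z x ^ 2) (hcp0 : ∀ x z, 0 ≤ cp x z)
    (hcp : ∀ x ∈ iv K M.1, ∀ z ∈ iv K M.2.2, ∀ k < K, ∀ j ≤ k, φ x0 (j + 1) z x ≠ 0 →
      nsq (Rs (Mx x) o x (sx x) K s.2.2 k x0 (ix k (z - s.2.2)) *ᵥ v x z) ≤ cp x z)
    {j k : ℕ} (hj : j ≤ k) (hk : k < K) :
    ∑ x ∈ iv K R1, ∑ z ∈ iv K R3,
        nsq (Rx Mx o sx K s.2.2 s.1 x0 k (ix k z) x *ᵥ shC K M s (C x0) (j + 1) z x) ≤
      EE Mx o sx K (fun x => anx K (a x)) lam (fun x => nx K (wf φ x)) v cp M s.2.2 x0 := by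
  refine (H483.num_R M s R1 R3 x0 (C x0) k (j + 1)).trans ?_
  unfold EE
  refine sum_le_sum fun x hx => sum_le_sum fun z hz => ?_
  rw [hC, mulVec_smul, H841.nsq_smul]
  exact le_eQ_nloc (Mx := Mx x) (o := o) (x1 := x) (s := sx x) (lam := lam) (a := a x)
    (W := wf φ x) (fun k => wf_nonneg φ x k x0 z) (fun k hk hn => hm x hx z hz k hk hn) s.2.2
    hj hk (v x z) (hcp0 x z) (by
      unfold wf
      by_cases h0 : φ x0 (j + 1) z x = 0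
      · rw [h0]; simp
      · rw [mul_comm (cp x z)]
        exact mul_le_mul_of_nonneg_left (hcp x hx z hz k hk j hj h0) (sq_nonneg _))

/-- **The masses of every time at one `x₀`.** -/
theorem mm_all (M s : Pt) (R1 R3 : ℤ) (hC : ∀ x0 k z x, C x0 k z x = φ x0 k z x • v x z) {x0 : ℤ}
    (hm : ∀ x ∈ iv K M.1, ∀ z ∈ iv K M.2.2, ∀ k < K, ¬ a x z k (ix k x0) →
      φ x0 k z x ^ 2 ≤ φ x0 (k + 1) z x ^ 2) {j : ℕ} (hj : j ≤ K) :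
    ∑ x ∈ iv K R1, ∑ z ∈ iv K R3, nsq (shC K M s (C x0) j z x) ≤
      MM K a lam (wf φ) v M x0 := by
  refine (H483.sum_shC (K := K) M s R1 R3 (C x0) j (fun _ _ w => nsq w)
    (fun _ _ => H841.nsq_zero) (fun _ _ w => nsq_nonneg w)).trans ?_
  unfold MM
  refine sum_le_sum fun x hx => sum_le_sum fun z hz => ?_
  rw [hC, H841.nsq_smul]
  refine mul_le_mul_of_nonneg_right ?_ (nsq_nonneg _)
  have hW : ∀ k : ℕ, ∀ _ : ℤ, 0 ≤ wf φ x k x0 z := fun k _ => wf_nonneg φ x k x0 z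
  have hm' : ∀ k < K, ∀ _ : ℤ, ¬ a x z k (ix k x0) → wf φ x k x0 z ≤ wf φ x (k + 1) x0 z :=
    fun k hk _ hn => hm x hx z hz k hk hn
  have h3 : φ x0 j z x ^ 2 = wf φ x j x0 z := rfl
  rw [h3]
  by_cases h : cq (a x z) K j x0 ≤ lam
  · have h1 : wf φ x j x0 z ≤ up (a x z) K lam (fun k x0 => wf φ x k x0 z) K x0 :=
      le_up_lag (a := fun k _ => a x z k (ix k x0)) (W := fun k _ => wf φ x k x0 z) hW hm'
        hj le_rfl (x := x0) h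
    have h2 : 0 ≤ tl (a x z) K lam (fun k x0 => wf φ x k x0 z) x0 :=
      tl_nonneg (fun k x0 => wf_nonneg φ x k x0 z) x0
    linarith
  · push Not at h
    have h1 : wf φ x j x0 z ≤ tl (a x z) K lam (fun k x0 => wf φ x k x0 z) x0 :=
      le_tl (a := fun k _ => a x z k (ix k x0)) (W := fun k _ => wf φ x k x0 z) hW hm'
        (x := x0) hj h
    have h2 : 0 ≤ up (a x z) K lam (fun k x0 => wf φ x k x0 z) K x0 :=
      up_nonneg (fun k x0 => wf_nonneg φ x k x0 z) K x0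
    linarith

end

/-! ### The sums over `x₀` -/

variable {ι : Type} [Fintype ι]
variable {Mx : ℤ → ℕ → ℤ → Matrix ι ι ℝ} {o : ℤ} {sx : ℤ → ℕ → ℤ → ℤ → ℝ} {K lam : ℕ}
variable {a : ℤ → ℤ → ℕ → ℤ → Prop} {v : ℤ → ℤ → ι → ℝ} {cp : ℤ → ℤ → ℝ}
variable {W : ℤ → ℕ → ℤ → ℤ → ℝ} {T sh : ℤ} {M : Pt} {e : ℝ}

theorem sum3_comm (A B X : Finset ℤ) (f : ℤ → ℤ → ℤ → ℝ) :
    ∑ x0 ∈ X, ∑ x ∈ A, ∑ z ∈ B, f x0 x z = ∑ x ∈ A, ∑ z ∈ B, ∑ x0 ∈ X, f x0 x z := by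
  rw [sum_comm]
  exact sum_congr rfl fun x _ => sum_comm

/-- **The energies with any bound of the deviations**; `r` the end energy of the slot itself. -/
theorem sum_EEq [DecidableEq ι] (he : 0 ≤ e) (hW0 : ∀ x k x0 z, 0 ≤ W x k x0 z)
    (hW : ∀ x ∈ iv K M.1, ∀ z ∈ iv K M.2.2, ∀ k ≤ K, ∀ j ∈ iv (K - k) T,
      ∑ x0 ∈ iv k j, W x k x0 z ≤ e * 2 ^ k) (hcp : ∀ x z, 0 ≤ cp x z) {r q : ℝ}
    (hR : ∑ x ∈ iv K M.1, ∑ z ∈ iv K M.2.2, ∑ x0 ∈ iv K T,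
      nsq (Rm (Mx x) o x (sx x) K 0 x0 z *ᵥ v x z) ≤ r)
    (hq : ∑ x ∈ iv K M.1, ∑ z ∈ iv K M.2.2, ∑ k ∈ range (K + 1), ∑ x0 ∈ iv K T,
      up (a x z) K lam (cW K T z (W x)) k x0 *
      nsq ((Rs (Mx x) o x (sx x) K sh k x0 (ix k (z - sh)) -
        Rm (Mx x) o x (sx x) K k x0 z) *ᵥ v x z) ≤ q) :
    ∑ x0 ∈ iv K T, EE Mx o sx K a lam W v cp M sh x0 ≤
      8 * (((lam : ℝ) + 1) * e) * r + 2 * q +
      e * ∑ x0 ∈ iv K T, ∑ x ∈ iv K M.1, ∑ z ∈ iv K M.2.2,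
        cp x z * ((cq (a x z) K 0 x0 - lam : ℕ) : ℝ) := by
  unfold EE
  rw [sum3_comm, sum3_comm (f := fun x0 x z => cp x z * ((cq (a x z) K 0 x0 - lam : ℕ) : ℝ))]
  have h1 : ∀ x ∈ iv K M.1, ∀ z ∈ iv K M.2.2, ∑ x0 ∈ iv K T,
      eQ (Mx x) o x (sx x) K (a x) lam (W x) sh z (v x z) (cp x z) x0 ≤
      8 * (((lam : ℝ) + 1) * e) * (∑ x0 ∈ iv K T,
        nsq (Rm (Mx x) o x (sx x) K 0 x0 z *ᵥ v x z)) +
      2 * (∑ k ∈ range (K + 1), ∑ x0 ∈ iv K T, up (a x z) K lam (cW K T z (W x)) k x0 *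
        nsq ((Rs (Mx x) o x (sx x) K sh k x0 (ix k (z - sh)) -
          Rm (Mx x) o x (sx x) K k x0 z) *ᵥ v x z)) +
      e * ∑ x0 ∈ iv K T, cp x z * ((cq (a x z) K 0 x0 - lam : ℕ) : ℝ) := fun x hx z hz =>
    sum_eQ1 (a := a x) he (fun k x0 => hW0 x k x0 z) (hW x hx z hz) sh (v x z) (hcp x z) le_rfl
      le_rfl
  refine (sum_le_sum fun x hx => sum_le_sum fun z hz => h1 x hx z hz).trans ?_
  simp only [sum_add_distrib, ← mul_sum]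
  have h2 := mul_le_mul_of_nonneg_left hR (by positivity : 0 ≤ 8 * (((lam : ℝ) + 1) * e))
  linarith

/-- **The energies**, small live fibres, blind to the signs. -/
theorem sum_EE [DecidableEq ι] (hs1 : ∀ x k a b, |sx x k a b| ≤ 1) (ho : o = 1 ∨ o = -1)
    {Q : ℤ → (ι → ℝ) → ℝ}
    (hX : ∀ x ∈ iv K M.1, ∀ a, ∑ i ∈ range K, En (Mx x) K T x M.2.2 (i + 1) a ≤ 2 ^ K * Q x a)
    (hR : ∀ x ∈ iv K M.1, ∀ z ∈ iv K M.2.2, ∀ a, ∑ x0 ∈ iv K T,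
      nsq (Rm (Mx x) o x (sx x) K 0 x0 z *ᵥ a) ≤ 2 ^ K * Q x a)
    (he : 0 ≤ e) (hW0 : ∀ x k x0 z, 0 ≤ W x k x0 z)
    (hW : ∀ x ∈ iv K M.1, ∀ z ∈ iv K M.2.2, ∀ k ≤ K, ∀ j ∈ iv (K - k) T,
      ∑ x0 ∈ iv k j, W x k x0 z ≤ e * 2 ^ k)
    {θ : ℤ → ℕ → ℤ → ℝ} (hθ0 : ∀ x k m, 0 ≤ θ x k m)
    (hθ : ∀ x k m a, nsq (Mx x k m *ᵥ a) ≤ θ x k m * nsq a) {Θ : ℤ → ℝ}
    (hΘ : ∀ x ∈ iv K M.1, ∑ i ∈ range K, ep (θ x) K T x M.2.2 i ≤ Θ x * 2 ^ K)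
    {al : ℤ → ℕ → ℤ → Prop} {V : ℝ} (hV0 : 0 ≤ V)
    (hV : ∀ x ∈ iv K M.1, ∀ k ≤ K, ∀ z ∈ iv K M.2.2, al x k z →
      ∑ z' ∈ iv k (ix k z), nsq (v x z') ≤ V * 2 ^ k)
    (hup : ∀ x ∈ iv K M.1, ∀ z ∈ iv K M.2.2, ∀ k < K, al x k z → al x (k + 1) z)
    (hal : ∀ x ∈ iv K M.1, ∀ z ∈ iv K M.2.2, ∀ k ≤ K, ¬ al x k z → ∀ x0 ∈ iv K T, W x k x0 z = 0)
    (L : ℕ) (hcp : ∀ x z, 0 ≤ cp x z) :
    ∑ x0 ∈ iv K T, EE Mx o sx K a lam W v cp M sh x0 ≤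
      ((lam : ℝ) + 1) * e * ((104 + 32 * (L : ℝ) ^ 3) *
          (2 ^ K * ∑ x ∈ iv K M.1, ∑ z ∈ iv K M.2.2, Q x (v x z)) +
        256 * (((L : ℝ) + 2) ^ 2 + 2) / 2 ^ L * (V * (∑ x ∈ iv K M.1, Θ x) * 4 ^ K)) +
      e * ∑ x0 ∈ iv K T, ∑ x ∈ iv K M.1, ∑ z ∈ iv K M.2.2,
        cp x z * ((cq (a x z) K 0 x0 - lam : ℕ) : ℝ) := by
  unfold EE
  rw [sum3_comm, sum3_comm (f := fun x0 x z => cp x z * ((cq (a x z) K 0 x0 - lam : ℕ) : ℝ))]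
  have h1 : ∀ x ∈ iv K M.1, ∑ z ∈ iv K M.2.2, ∑ x0 ∈ iv K T,
      eQ (Mx x) o x (sx x) K (a x) lam (W x) sh z (v x z) (cp x z) x0 ≤
      ((lam : ℝ) + 1) * e * ((104 + 32 * (L : ℝ) ^ 3) *
          (2 ^ K * ∑ z ∈ iv K M.2.2, Q x (v x z)) +
        256 * (((L : ℝ) + 2) ^ 2 + 2) / 2 ^ L * (V * Θ x * 4 ^ K)) +
      e * ∑ z ∈ iv K M.2.2, ∑ x0 ∈ iv K T,
        cp x z * ((cq (a x z) K 0 x0 - lam : ℕ) : ℝ) := by
    intro x hx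
    set al' : ℕ → ℤ → Prop := fun k z => al x k z ∧ ix K z = M.2.2 with hal'
    have h2 : ∀ z ∈ iv K M.2.2, ∑ x0 ∈ iv K T,
        eQ (Mx x) o x (sx x) K (a x) lam (W x) sh z (v x z) (cp x z) x0 ≤
        ((lam : ℝ) + 1) * e * (8 * (2 ^ K * Q x (v x z)) +
          4 * ((24 + 8 * (L : ℝ) ^ 3) * (2 ^ K * Q x (v x z)) +
          farA K L (ep (θ x) K T x M.2.2) al' z * nsq (v x z))) +
        e * ∑ x0 ∈ iv K T, cp x z * ((cq (a x z) K 0 x0 - lam : ℕ) : ℝ) := by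
      intro z hz
      have hzr := mem_iv.1 hz
      exact sum_eQ_pt (hs1 x) ho (hX x hx (v x z)) (hR x hx z hz (v x z)) he
        (fun k x0 => hW0 x k x0 z) (hW x hx z hz) (hθ0 x) (hθ x) al' L sh hz
        (fun k hk h => ⟨hup x hx z hz k hk h.1, h.2⟩)
        (fun k hk h => hal x hx z hz k hk fun h' => h ⟨h', hzr⟩) (hcp x z)
    have h3 := H876.far_all (M3 := M.2.2) (hθ0 x) (hΘ x hx) (al := al') (v := v x) hV0
      (fun k hk z h => hV x hx k hk z (mem_iv.2 h.2) h.1) L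
    refine (sum_le_sum h2).trans ?_
    rw [sum_add_distrib, ← mul_sum, ← mul_sum]
    refine add_le_add ?_ le_rfl
    refine mul_le_mul_of_nonneg_left ?_ (by positivity)
    have h4 : 256 * (((L : ℝ) + 2) ^ 2 + 2) / 2 ^ L * (V * Θ x * 4 ^ K) =
        4 * (64 * (((L : ℝ) + 2) ^ 2 + 2) / 2 ^ L * (V * Θ x * 4 ^ K)) := by ring
    rw [h4, sum_add_distrib, ← mul_sum, ← mul_sum, ← mul_sum, sum_add_distrib, ← mul_sum,
      ← mul_sum]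
    linarith
  refine (sum_le_sum h1).trans (le_of_eq ?_)
  rw [sum_add_distrib, ← mul_sum, ← mul_sum, sum_add_distrib, ← mul_sum, ← mul_sum, ← mul_sum,
    ← sum_mul, ← mul_sum]

/-- **The masses.** -/
theorem sum_MM (he : 0 ≤ e) (hW0 : ∀ x k x0 z, 0 ≤ W x k x0 z)
    (hW : ∀ x ∈ iv K M.1, ∀ z ∈ iv K M.2.2, ∀ k ≤ K, ∀ j ∈ iv (K - k) T,
      ∑ x0 ∈ iv k j, W x k x0 z ≤ e * 2 ^ k) :
    ∑ x0 ∈ iv K T, MM K a lam W v M x0 ≤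
      ((lam : ℝ) + 1) * e * (2 ^ K * ∑ x ∈ iv K M.1, ∑ z ∈ iv K M.2.2, nsq (v x z)) +
      e * ∑ x0 ∈ iv K T, ∑ x ∈ iv K M.1, ∑ z ∈ iv K M.2.2,
        nsq (v x z) * ((cq (a x z) K 0 x0 - lam : ℕ) : ℝ) := by
  unfold MM
  rw [sum3_comm, sum3_comm (f := fun x0 x z => nsq (v x z) *
    ((cq (a x z) K 0 x0 - lam : ℕ) : ℝ))]
  simp only [mul_sum]
  rw [← sum_add_distrib]
  refine sum_le_sum fun x hx => ?_
  rw [← sum_add_distrib]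
  refine sum_le_sum fun z hz => ?_
  have h0 : ∀ x0 ∈ iv K T, (up (a x z) K lam (fun k x0 => W x k x0 z) K x0 +
      tl (a x z) K lam (fun k x0 => W x k x0 z) x0) * nsq (v x z) =
      (up (a x z) K lam (cW K T z (W x)) K x0 +
        tl (a x z) K lam (cW K T z (W x)) x0) * nsq (v x z) := by
    intro x0 hx0
    have h : ∀ l, cW K T z (W x) l x0 = W x l x0 z := fun l => by
      unfold cW
      rw [if_pos (mem_iv.1 hx0)]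
    unfold up lo tl
    simp only [h]
  rw [sum_congr rfl h0, ← sum_mul, sum_add_distrib, ← mul_sum, ← mul_sum]
  have hW0' : ∀ k x0, 0 ≤ W x k x0 z := fun k x0 => hW0 x k x0 z
  have h3 := sum_up (a := a x z) (lam := lam) (cW_nonneg (n := K) (T := T) hW0') he
    (cW_sum he (hW x hx z hz)) le_rfl T
  have h4 := sum_tl (a := a x z) (lam := lam) (cW_sum he (hW x hx z hz)) T
  have h5 := mul_le_mul_of_nonneg_right (add_le_add h3 h4) (nsq_nonneg (v x z))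
  linarith

/-- **The tail** with the packing of the affected squares at every `x₀`. -/
theorem sum_cq_all {R S : ℤ} {Qf : ℕ → ℤ → ℤ → ℤ → Prop} {B κ : ℝ} (hB : 1 ≤ B) (hκ : 0 ≤ κ)
    (h : ∀ x0 ∈ iv K T, H958.PackQ K R S (fun l => Qf l (ix l x0)) B) {c : ℤ → ℤ → ℝ}
    (hc : ∀ x0 ∈ iv K T, ∀ k < K, ∀ i j, Qf k (ix k x0) i j →
      ∑ x ∈ iv k i, ∑ z ∈ iv k j, c x z ≤ κ * 4 ^ k) (lam : ℕ) :
    ∑ x0 ∈ iv K T, ∑ x ∈ iv K R, ∑ z ∈ iv K S,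
      c x z * ((cq (fun l j => Qf l j (ix l x) (ix l z)) K 0 x0 - lam : ℕ) : ℝ) ≤
        κ * (1 - 1 / B) ^ lam * B * 8 ^ K := by
  refine (sum_le_sum fun x0 hx0 => sum_cq hB hκ (h x0 hx0) (hc x0 hx0) lam).trans (le_of_eq ?_)
  rw [sum_const, card_iv, nsmul_eq_mul]
  push_cast
  have : (8 : ℝ) ^ K = 2 ^ K * 4 ^ K := by rw [← mul_pow]; norm_num
  rw [this]
  ring

end

end Vale.Agent.P141.H224
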