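import Vale.Agent.P141.H224.SupQ
import Vale.Agent.P141.H876.ShiftY

/-!
# P141, line (A): all scales at one point `x₀`, live scales

Letters of `H876.ShiftY` (weights which vanish off the live scales, functions with small live
fibres) for the numbers `eR` and `eQ`.
-/

namespace Vale.Agent.P141.H224

open Finset Matrix
open Vale.Agent.P141.PL (iv ix hs mem_iv ix_ix card_iv)
open Vale.Agent.P141.H43 (nsq nsq_nonneg)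
open Vale.Agent.P141.H841 (Rm Rs ep)
open Vale.Agent.P141.H876 (En wn S1a S1y)
open Vale.Agent.P141.H444.FD (farA)

noncomputable section

open scoped Classical

/-- the envelope vanishes where all the finer weights vanish -/
theorem up_zero {a : ℕ → ℤ → Prop} {n lam : ℕ} {W : ℕ → ℤ → ℝ} {k : ℕ} {x : ℤ}
    (h : ∀ l ≤ k, W l x = 0) : up a n lam W k x = 0 := by
  unfold up lo
  rw [h k le_rfl, ite_self, zero_add]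
  refine sum_eq_zero fun l hl => ?_
  rw [h l (mem_range.1 hl).le, ite_self]

/-- live scales are closed upwards -/
theorem al_up {n : ℕ} {al : ℕ → ℤ → Prop} {y : ℤ} (hup : ∀ k < n, al k y → al (k + 1) y) {l k : ℕ}
    (h : l ≤ k) (hk : k ≤ n) (hl : al l y) : al k y := by
  induction k, h using Nat.le_induction with
  | base => exact hl
  | succ k _ ih => exact hup k (by omega) (ih (by omega))

variable {ι : Type*} [Fintype ι]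
variable {Mx : ℕ → ℤ → Matrix ι ι ℝ} {o x1 T M3 : ℤ} {n lam : ℕ} {s : ℕ → ℤ → ℤ → ℝ}

/-- **All scales at one `x₀`, one point `y`.** -/
theorem sum_eR_Y (hs1 : ∀ k a b, |s k a b| ≤ 1) (ho : o = 1 ∨ o = -1) {w : ι → ℝ} {q r : ℝ}
    (hX : ∑ i ∈ range n, En Mx n T x1 M3 (i + 1) w ≤ q) {y : ℤ}
    (hR : ∑ x0 ∈ iv n T, nsq (Rm Mx o x1 s n 0 x0 y *ᵥ w) ≤ r)
    {W : ℕ → ℤ → ℤ → ℝ} {e : ℝ} (he : 0 ≤ e) (hW0 : ∀ k x0, 0 ≤ W k x0 y)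
    (hW : ∀ k ≤ n, ∀ j, ∑ x0 ∈ iv k j, W k x0 y ≤ e * 2 ^ k)
    {θ : ℕ → ℤ → ℝ} (hθ0 : ∀ k m, 0 ≤ θ k m)
    (hθ : ∀ k m a, nsq (Mx k m *ᵥ a) ≤ θ k m * nsq a) (al : ℕ → ℤ → Prop) (L : ℕ) (sh : ℤ)
    (hy : y ∈ iv n M3) (hal : ∀ k ≤ n, ¬ al k y → ∀ x0, W k x0 y = 0) :
    ∑ x0 ∈ iv n T, eR Mx o x1 s n W sh y w x0 ≤
      e * (8 * r + 4 * ((24 + 8 * (L : ℝ) ^ 3) * q +
        farA n L (ep θ n T x1 M3) al y * nsq w)) := by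
  unfold eR
  rw [sum_add_distrib, ← mul_sum, ← mul_sum, sum_comm]
  have h1 := S1y (T := T) hs1 ho hX (W := fun k x0 => W k x0 y) he (fun k x0 => hW0 k x0)
    (fun k hk j => hW k hk j) hθ0 hθ al L sh hy hal
  have h2 := sum_mR (Mx := Mx) (o := o) (x1 := x1) (s := s) (T := T) he
    (W := fun k x => W k x y) (fun k hk j => hW k hk j) y w
  have h3 := mul_le_mul_of_nonneg_left hR (by positivity : 0 ≤ 4 * e)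
  linarith

/-- **All scales at one `x₀`**, small live fibres. -/
theorem sum_eR_L (hs1 : ∀ k a b, |s k a b| ≤ 1) (ho : o = 1 ∨ o = -1) {Q : (ι → ℝ) → ℝ}
    (hX : ∀ a, ∑ i ∈ range n, En Mx n T x1 M3 (i + 1) a ≤ 2 ^ n * Q a)
    (hR : ∀ p a, ∑ x0 ∈ iv n T, nsq (Rm Mx o x1 s n 0 x0 p *ᵥ a) ≤ 2 ^ n * Q a)
    {W : ℕ → ℤ → ℤ → ℝ} {e : ℝ} (he : 0 ≤ e) (hW0 : ∀ k x0 y, 0 ≤ W k x0 y)
    (hW : ∀ k ≤ n, ∀ j y, ∑ x0 ∈ iv k j, W k x0 y ≤ e * 2 ^ k)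
    {θ : ℕ → ℤ → ℝ} (hθ0 : ∀ k m, 0 ≤ θ k m)
    (hθ : ∀ k m a, nsq (Mx k m *ᵥ a) ≤ θ k m * nsq a) {Θ : ℝ}
    (hΘ : ∑ i ∈ range n, ep θ n T x1 M3 i ≤ Θ * 2 ^ n) {al : ℕ → ℤ → Prop} {v : ℤ → ι → ℝ} {V : ℝ}
    (hV0 : 0 ≤ V) (hV : ∀ k ≤ n, ∀ y, al k y → ∑ y' ∈ iv k (ix k y), nsq (v y') ≤ V * 2 ^ k)
    (hal : ∀ y ∈ iv n M3, ∀ k ≤ n, ¬ al k y → ∀ x0, W k x0 y = 0) (L : ℕ) (sh : ℤ) :
    ∑ y ∈ iv n M3, ∑ x0 ∈ iv n T, eR Mx o x1 s n W sh y (v y) x0 ≤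
      e * ((104 + 32 * (L : ℝ) ^ 3) * (2 ^ n * ∑ y ∈ iv n M3, Q (v y)) +
        256 * (((L : ℝ) + 2) ^ 2 + 2) / 2 ^ L * (V * Θ * 4 ^ n)) := by
  have h1 := S1a (T := T) hs1 ho hX he hW0 hW hθ0 hθ hΘ hV0 hV hal L sh
  have h2 := sum_eR (Mx := Mx) (o := o) (x1 := x1) (s := s) (T := T) (M3 := M3) he hW sh v h1
  have h3 : ∑ y ∈ iv n M3, ∑ x0 ∈ iv n T, nsq (Rm Mx o x1 s n 0 x0 y *ᵥ v y) ≤
      2 ^ n * ∑ y ∈ iv n M3, Q (v y) := by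
    rw [mul_sum]
    exact sum_le_sum fun y _ => hR y (v y)
  have h4 := mul_le_mul_of_nonneg_left h3 (by positivity : 0 ≤ 8 * e)
  refine h2.trans (le_trans (add_le_add h4 le_rfl) (le_of_eq ?_))
  ring

/-- **All scales at one `x₀`**, weights which jump on affected cells, small live fibres. -/
theorem sum_eQ_L (hs1 : ∀ k a b, |s k a b| ≤ 1) (ho : o = 1 ∨ o = -1) {Q : (ι → ℝ) → ℝ}
    (hX : ∀ a, ∑ i ∈ range n, En Mx n T x1 M3 (i + 1) a ≤ 2 ^ n * Q a)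
    (hR : ∀ p a, ∑ x0 ∈ iv n T, nsq (Rm Mx o x1 s n 0 x0 p *ᵥ a) ≤ 2 ^ n * Q a)
    {a : ℤ → ℕ → ℤ → Prop} {W : ℕ → ℤ → ℤ → ℝ} {e : ℝ} (he : 0 ≤ e)
    (hW0 : ∀ k x0 y, 0 ≤ W k x0 y)
    (hW : ∀ k ≤ n, ∀ j y, ∑ x0 ∈ iv k j, W k x0 y ≤ e * 2 ^ k)
    {θ : ℕ → ℤ → ℝ} (hθ0 : ∀ k m, 0 ≤ θ k m)
    (hθ : ∀ k m a, nsq (Mx k m *ᵥ a) ≤ θ k m * nsq a) {Θ : ℝ}
    (hΘ : ∑ i ∈ range n, ep θ n T x1 M3 i ≤ Θ * 2 ^ n) {al : ℕ → ℤ → Prop} {v : ℤ → ι → ℝ} {V : ℝ}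
    (hV0 : 0 ≤ V) (hV : ∀ k ≤ n, ∀ y, al k y → ∑ y' ∈ iv k (ix k y), nsq (v y') ≤ V * 2 ^ k)
    (hup : ∀ y ∈ iv n M3, ∀ k < n, al k y → al (k + 1) y)
    (hal : ∀ y ∈ iv n M3, ∀ k ≤ n, ¬ al k y → ∀ x0, W k x0 y = 0) (L : ℕ) (sh : ℤ)
    {cp : ℤ → ℝ} (hcp : ∀ y, 0 ≤ cp y) :
    ∑ y ∈ iv n M3, ∑ x0 ∈ iv n T, eQ Mx o x1 s n a lam W sh y (v y) (cp y) x0 ≤
      ((lam : ℝ) + 1) * e * ((104 + 32 * (L : ℝ) ^ 3) * (2 ^ n * ∑ y ∈ iv n M3, Q (v y)) +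
        256 * (((L : ℝ) + 2) ^ 2 + 2) / 2 ^ L * (V * Θ * 4 ^ n)) +
      e * ∑ y ∈ iv n M3, ∑ x0 ∈ iv n T, cp y * ((cq (a y) n 0 x0 - lam : ℕ) : ℝ) := by
  unfold eQ
  simp only [sum_add_distrib]
  have h1 := sum_eR_L (M3 := M3) hs1 ho hX hR
    (W := fun k x y => up (a y) n lam (fun k x => W k x y) k x)
    (e := ((lam : ℝ) + 1) * e) (by positivity)
    (fun k x y => up_nonneg (fun k x => hW0 k x y) k x)
    (fun k hk j y => sum_up (fun k x => hW0 k x y) he (fun k hk j => hW k hk j y) hk j)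
    hθ0 hθ hΘ hV0 hV
    (fun y hy k hk hn x0 => up_zero fun l hl => hal y hy l (hl.trans hk)
      (fun h => hn (al_up (hup y hy) hl hk h)) x0) L sh
  refine add_le_add h1 ?_
  rw [mul_sum]
  refine sum_le_sum fun y _ => ?_
  rw [← mul_sum, ← mul_sum]
  have h2 := sum_tl (a := a y) (lam := lam) (W := fun k x => W k x y)
    (fun k hk j => hW k hk j y) T
  have h3 := mul_le_mul_of_nonneg_left h2 (hcp y)
  linarith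

end

end Vale.Agent.P141.H224
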