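import Vale.Agent.P141.H224.SupL

/-!
# P141, line (A): functions of the time `j` with the weight of the scale `k`, `j ≤ k`

* `le_up_lag` : the envelope of time `k` is above all the weights of the times `j ≤ k`;
* `le_eQ_lag` : the number `eQ` bounds `W j * |Rs k v|²` for all `j ≤ k ≤ n`;
* `le_eQ_next` : weights of the time `k + 1` with the slot of the scale `k`.
-/

namespace Vale.Agent.P141.H224

open Finset Matrix
open Vale.Agent.P141.PL (iv ix hs mem_iv ix_ix card_iv)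
open Vale.Agent.P141.H43 (nsq nsq_nonneg)
open Vale.Agent.P141.H841 (Rm Rs)

noncomputable section

open scoped Classical

section

variable {a : ℕ → ℤ → Prop} {n lam : ℕ} {W : ℕ → ℤ → ℝ} {e : ℝ}

theorem up_le_up (hW0 : ∀ k x, 0 ≤ W k x)
    (hWm : ∀ k < n, ∀ x, ¬ a k (ix k x) → W k x ≤ W (k + 1) x) {j k : ℕ} (h : j ≤ k) (hk : k ≤ n)
    (x : ℤ) : up a n lam W j x ≤ up a n lam W k x := by
  induction k, h using Nat.le_induction with
  | base => exact le_rfl
  | succ k _ ih => exact (ih (by omega)).trans (up_mono hW0 hWm (by omega) x)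

/-- the envelope of time `k` is above the weights of the times `j ≤ k` -/
theorem le_up_lag (hW0 : ∀ k x, 0 ≤ W k x)
    (hWm : ∀ k < n, ∀ x, ¬ a k (ix k x) → W k x ≤ W (k + 1) x) {j k : ℕ} (h : j ≤ k) (hk : k ≤ n)
    {x : ℤ} (hc : cq a n j x ≤ lam) : W j x ≤ up a n lam W k x :=
  (le_up hW0 hc).trans (up_le_up hW0 hWm h hk x)

/-- the sum over a cell of a weight of a finer time -/
theorem sum_lag (hW : ∀ k ≤ n, ∀ j, ∑ x ∈ iv k j, W k x ≤ e * 2 ^ k) {j k : ℕ} (h : j ≤ k)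
    (hk : k ≤ n) (m : ℤ) : ∑ x ∈ iv k m, W j x ≤ e * 2 ^ k := by
  rw [← H922.iv_iv h m (fun x => W j x)]
  refine (sum_le_sum fun c _ => hW j (h.trans hk) c).trans (le_of_eq ?_)
  rw [sum_const, card_iv, nsmul_eq_mul]
  push_cast
  rw [← Nat.sub_add_cancel h, pow_add]
  simp only [Nat.add_sub_cancel]
  ring

end

variable {ι : Type*} [Fintype ι]
variable {Mx : ℕ → ℤ → Matrix ι ι ℝ} {o x1 : ℤ} {n lam : ℕ} {s : ℕ → ℤ → ℤ → ℝ}

/-- **Every scale `k`, every time `j ≤ k`.** -/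
theorem le_eQ_lag {a : ℤ → ℕ → ℤ → Prop} {W : ℕ → ℤ → ℤ → ℝ} (hW0 : ∀ k x0 y, 0 ≤ W k x0 y)
    (hWm : ∀ k < n, ∀ x y, ¬ a y k (ix k x) → W k x y ≤ W (k + 1) x y) (sh : ℤ) {j k : ℕ}
    (hj : j ≤ k) (hk : k ≤ n) (x0 y : ℤ) (w : ι → ℝ) {cp : ℝ} (hcp0 : 0 ≤ cp)
    (hcp : W j x0 y * nsq (Rs Mx o x1 s n sh k x0 (ix k (y - sh)) *ᵥ w) ≤ cp * W j x0 y) :
    W j x0 y * nsq (Rs Mx o x1 s n sh k x0 (ix k (y - sh)) *ᵥ w) ≤
      eQ Mx o x1 s n a lam W sh y w cp x0 := by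
  unfold eQ
  by_cases h : cq (a y) n j x0 ≤ lam
  · have h1 := le_up_lag (W := fun k x => W k x y) (fun k x => hW0 k x y)
      (fun k hk x => hWm k hk x y) hj hk h
    have h2 := le_eR (Mx := Mx) (o := o) (x1 := x1) (s := s)
      (W := fun k x y => up (a y) n lam (fun k x => W k x y) k x)
      (fun k x y => up_nonneg (fun k x => hW0 k x y) k x)
      (fun k hk x y => up_mono (fun k x => hW0 k x y) (fun k hk x => hWm k hk x y) hk x)
      sh hk x0 y w
    have h3 : 0 ≤ cp * tl (a y) n lam (fun k x => W k x y) x0 :=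
      mul_nonneg hcp0 (tl_nonneg (fun k x => hW0 k x y) x0)
    have h4 := mul_le_mul_of_nonneg_right h1
      (nsq_nonneg (Rs Mx o x1 s n sh k x0 (ix k (y - sh)) *ᵥ w))
    linarith
  · push Not at h
    have h1 := le_tl (W := fun k x => W k x y) (fun k x => hW0 k x y)
      (fun k hk x => hWm k hk x y) (hj.trans hk) h
    have h2 := eR_nonneg (Mx := Mx) (o := o) (x1 := x1) (s := s) (n := n)
      (W := fun k x y => up (a y) n lam (fun k x => W k x y) k x)
      (fun k x y => up_nonneg (fun k x => hW0 k x y) k x) sh y w x0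
    have h3 := mul_le_mul_of_nonneg_left h1 hcp0
    linarith

/-- the weights of the time `k + 1`, cut at the scale `n` -/
def nx (n : ℕ) (W : ℕ → ℤ → ℤ → ℝ) (k : ℕ) (x y : ℤ) : ℝ := if k < n then W (k + 1) x y else 0

/-- the affected cells of the time `k + 1` -/
def anx (n : ℕ) (a : ℤ → ℕ → ℤ → Prop) (y : ℤ) (k : ℕ) (i : ℤ) : Prop :=
  k + 1 = n ∨ ∃ x, ix k x = i ∧ a y (k + 1) (ix (k + 1) x)

theorem nx_mono {a : ℤ → ℕ → ℤ → Prop} {W : ℕ → ℤ → ℤ → ℝ}
    (hWm : ∀ k < n, ∀ x y, ¬ a y k (ix k x) → W k x y ≤ W (k + 1) x y) :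
    ∀ k < n, ∀ x y, ¬ anx n a y k (ix k x) → nx n W k x y ≤ nx n W (k + 1) x y := by
  intro k hk x y h
  unfold anx at h
  push Not at h
  have hk1 : k + 1 < n := by omega
  unfold nx
  rw [if_pos hk, if_pos hk1]
  exact hWm (k + 1) hk1 x y (h.2 x rfl)

theorem nx_nonneg {W : ℕ → ℤ → ℤ → ℝ} (hW0 : ∀ k x0 y, 0 ≤ W k x0 y) (k : ℕ) (x y : ℤ) :
    0 ≤ nx n W k x y := by
  unfold nx
  split_ifs
  · exact hW0 _ x y
  · exact le_rfl

/-- the count of the affected cells of the time `k + 1` -/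
theorem cq_anx (n : ℕ) (a : ℤ → ℕ → ℤ → Prop) (y : ℤ) {k : ℕ} (hk : k ≤ n) (x : ℤ) :
    cq (anx n a y) n k x ≤ 1 + cq (a y) n k x := by
  have h1 : ∀ d j : ℕ, j + d + 1 = n → cq (anx n a y) n j x = 1 + cq (a y) n (j + 1) x := by
    intro d
    induction d with
    | zero =>
      intro j hj
      have e1 : j + 1 = n := by omega
      rw [cq_yes (by omega) (Or.inl e1), e1, cq_self, cq_self]
    | succ d ih =>
      intro j hj
      have h2 := ih (j + 1) (by omega)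
      by_cases ha : a y (j + 1) (ix (j + 1) x)
      · rw [cq_yes (by omega) (Or.inr ⟨x, rfl, ha⟩), h2, cq_yes (n := n) (k := j + 1) (by omega) ha]
      · have hn : ¬ anx n a y j (ix j x) := by
          rintro (h | ⟨x', hx', h⟩)
          · omega
          · rw [ix_mono (Nat.le_succ j) hx'] at h
            exact ha h
        rw [cq_no (by omega) hn, h2, cq_no (n := n) (k := j + 1) (by omega) ha]
  rcases Nat.lt_or_ge k n with h | h
  · rw [h1 (n - k - 1) k (by omega), cq_succ h]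
    omega
  · have : k = n := le_antisymm hk h
    rw [this, cq_self]
    omega

/-- **The functions of the time `j + 1` with the weight of the scale `k`**, `j ≤ k < n`. -/
theorem le_eQ_next {a : ℤ → ℕ → ℤ → Prop} {W : ℕ → ℤ → ℤ → ℝ} (hW0 : ∀ k x0 y, 0 ≤ W k x0 y)
    (hWm : ∀ k < n, ∀ x y, ¬ a y k (ix k x) → W k x y ≤ W (k + 1) x y) (sh : ℤ) {j k : ℕ}
    (hj : j ≤ k) (hk : k < n) (x0 y : ℤ) (w : ι → ℝ) {cp : ℝ} (hcp0 : 0 ≤ cp)
    (hcp : W (j + 1) x0 y * nsq (Rs Mx o x1 s n sh k x0 (ix k (y - sh)) *ᵥ w) ≤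
      cp * W (j + 1) x0 y) :
    W (j + 1) x0 y * nsq (Rs Mx o x1 s n sh k x0 (ix k (y - sh)) *ᵥ w) ≤
      eQ Mx o x1 s n (anx n a) lam (nx n W) sh y w cp x0 := by
  have e1 : nx n W j x0 y = W (j + 1) x0 y := by
    unfold nx
    rw [if_pos (by omega)]
  have h := le_eQ_lag (Mx := Mx) (o := o) (x1 := x1) (s := s) (lam := lam) (nx_nonneg hW0)
    (nx_mono hWm) sh hj hk.le x0 y w hcp0 (by rw [e1]; exact hcp)
  rwa [e1] at h

end

end Vale.Agent.P141.H224
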