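import Vale.Agent.P141.H224.SupLag

/-!
# P141, line (A): all scales at one point, local hypotheses

The number `eQ` at `(x₀, y)` sees only the weights `W k x₀ y` and the predicates `a y k (ix k x₀)`.

* `eQ_congr`, `le_eQ_loc`, `le_eQ_nloc` : hypotheses at the pair `(x₀, y)` only;
* `sum_eQ1` : the sum over the root of `x₀`, weights on the root only, any bound of the deviations;
* `sum_eQ_pt` : the same with `H876.S1y`.
-/

namespace Vale.Agent.P141.H224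

open Finset Matrix
open Vale.Agent.P141.PL (iv ix hs mem_iv ix_ix card_iv)
open Vale.Agent.P141.H43 (nsq nsq_nonneg)
open Vale.Agent.P141.H841 (Rm Rs ep)
open Vale.Agent.P141.H876 (En S1y)
open Vale.Agent.P141.H444.FD (farA)

noncomputable section

open scoped Classical

variable {ι : Type*} [Fintype ι]
variable {Mx : ℕ → ℤ → Matrix ι ι ℝ} {o x1 T M3 : ℤ} {n lam : ℕ} {s : ℕ → ℤ → ℤ → ℝ}
variable {a : ℤ → ℕ → ℤ → Prop} {W : ℕ → ℤ → ℤ → ℝ}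

/-- the number at `(x₀, y)` sees only the weights there -/
theorem eQ_congr {W' : ℕ → ℤ → ℤ → ℝ} {x0 y : ℤ} (h : ∀ k, W k x0 y = W' k x0 y) (sh : ℤ)
    (w : ι → ℝ) (cp : ℝ) :
    eQ Mx o x1 s n a lam W sh y w cp x0 = eQ Mx o x1 s n a lam W' sh y w cp x0 := by
  have e1 : (fun k => W k x0 y) = fun k => W' k x0 y := funext h
  have e2 : ∀ W : ℕ → ℤ → ℤ → ℝ, eQ Mx o x1 s n a lam W sh y w cp x0 =
      (fun g : ℕ → ℝ => eQ Mx o x1 s n a lam (fun k _ _ => g k) sh y w cp x0)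
        (fun k => W k x0 y) := fun W => rfl
  rw [e2 W, e2 W', e1]

/-- **Every scale `k`, every time `j ≤ k`**, hypotheses at `(x₀, y)`. -/
theorem le_eQ_loc {x0 y : ℤ} (hW0 : ∀ k, 0 ≤ W k x0 y)
    (hWm : ∀ k < n, ¬ a y k (ix k x0) → W k x0 y ≤ W (k + 1) x0 y) (sh : ℤ) {j k : ℕ}
    (hj : j ≤ k) (hk : k ≤ n) (w : ι → ℝ) {cp : ℝ} (hcp0 : 0 ≤ cp)
    (hcp : W j x0 y * nsq (Rs Mx o x1 s n sh k x0 (ix k (y - sh)) *ᵥ w) ≤ cp * W j x0 y) :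
    W j x0 y * nsq (Rs Mx o x1 s n sh k x0 (ix k (y - sh)) *ᵥ w) ≤
      eQ Mx o x1 s n a lam W sh y w cp x0 :=
  le_eQ_lag (Mx := Mx) (o := o) (x1 := x1) (s := s) (lam := lam)
    (a := fun _ k _ => a y k (ix k x0)) (W := fun k _ _ => W k x0 y) (fun k _ _ => hW0 k)
    (fun k hk _ _ h => hWm k hk h) sh hj hk x0 y w hcp0 hcp

/-- **Every scale `k`, every time `j + 1`, `j ≤ k`**, hypotheses at `(x₀, y)`. -/
theorem le_eQ_nloc {x0 y : ℤ} (hW0 : ∀ k, 0 ≤ W k x0 y)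
    (hWm : ∀ k < n, ¬ a y k (ix k x0) → W k x0 y ≤ W (k + 1) x0 y) (sh : ℤ) {j k : ℕ}
    (hj : j ≤ k) (hk : k < n) (w : ι → ℝ) {cp : ℝ} (hcp0 : 0 ≤ cp)
    (hcp : W (j + 1) x0 y * nsq (Rs Mx o x1 s n sh k x0 (ix k (y - sh)) *ᵥ w) ≤
      cp * W (j + 1) x0 y) :
    W (j + 1) x0 y * nsq (Rs Mx o x1 s n sh k x0 (ix k (y - sh)) *ᵥ w) ≤
      eQ Mx o x1 s n (anx n a) lam (nx n W) sh y w cp x0 := by
  have e1 : nx n W j x0 y = W (j + 1) x0 y := by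
    unfold nx
    rw [if_pos (by omega)]
  have h := le_eQ_loc (Mx := Mx) (o := o) (x1 := x1) (s := s) (lam := lam) (a := anx n a)
    (W := nx n W) (x0 := x0) (y := y) (fun k => by
      unfold nx
      split_ifs
      · exact hW0 _
      · exact le_rfl) (fun k hk h => by
      unfold anx at h
      push Not at h
      have hk1 : k + 1 < n := by omega
      unfold nx
      rw [if_pos hk, if_pos hk1]
      exact hWm (k + 1) hk1 (h.2 x0 rfl)) sh hj hk.le w hcp0 (by rw [e1]; exact hcp)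
  rwa [e1] at h

/-! ### The sum over the root -/

/-- the weights cut to the root of `x₀`, at the point `y` -/
def cW (n : ℕ) (T y : ℤ) (W : ℕ → ℤ → ℤ → ℝ) (k : ℕ) (x0 : ℤ) : ℝ :=
  if ix n x0 = T then W k x0 y else 0

theorem cW_nonneg {y : ℤ} (hW0 : ∀ k x0, 0 ≤ W k x0 y) (k : ℕ) (x0 : ℤ) : 0 ≤ cW n T y W k x0 := by
  unfold cW
  split_ifs
  · exact hW0 k x0
  · exact le_rfl

theorem cW_sum {y : ℤ} {e : ℝ} (he : 0 ≤ e)
    (hW : ∀ k ≤ n, ∀ j ∈ iv (n - k) T, ∑ x0 ∈ iv k j, W k x0 y ≤ e * 2 ^ k) :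
    ∀ k ≤ n, ∀ j, ∑ x0 ∈ iv k j, cW n T y W k x0 ≤ e * 2 ^ k := by
  intro k hk j
  have hix : ∀ x0 ∈ iv k j, ix n x0 = ix (n - k) j := by
    intro x0 hx
    rw [← mem_iv.1 hx, ix_ix, Nat.add_sub_cancel' hk]
  by_cases hj : ix (n - k) j = T
  · refine le_trans (le_of_eq (sum_congr rfl fun x0 hx => ?_)) (hW k hk j (mem_iv.2 hj))
    unfold cW
    rw [if_pos ((hix x0 hx).trans hj)]
  · have : ∑ x0 ∈ iv k j, cW n T y W k x0 = 0 := by
      refine sum_eq_zero fun x0 hx => ?_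
      unfold cW
      rw [if_neg (fun h => hj ((hix x0 hx).symm.trans h))]
    rw [this]
    positivity

theorem up_cW {y x0 : ℤ} (hx : x0 ∈ iv n T) (k : ℕ) :
    up (a y) n lam (cW n T y W) k x0 = up (a y) n lam (fun k x => W k x y) k x0 := by
  have h : ∀ l, cW n T y W l x0 = W l x0 y := fun l => by
    unfold cW
    rw [if_pos (mem_iv.1 hx)]
  unfold up lo
  simp only [h]

/-- **The sum over the root**, one point `y`, any bound of the deviations. -/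
theorem sum_eQ1 {y : ℤ} {e : ℝ} (he : 0 ≤ e) (hW0 : ∀ k x0, 0 ≤ W k x0 y)
    (hW : ∀ k ≤ n, ∀ j ∈ iv (n - k) T, ∑ x0 ∈ iv k j, W k x0 y ≤ e * 2 ^ k) (sh : ℤ) (w : ι → ℝ)
    {cp : ℝ} (hcp : 0 ≤ cp) {r q : ℝ}
    (hR : ∑ x0 ∈ iv n T, nsq (Rm Mx o x1 s n 0 x0 y *ᵥ w) ≤ r)
    (hq : ∑ k ∈ range (n + 1), ∑ x0 ∈ iv n T, up (a y) n lam (cW n T y W) k x0 *
      nsq ((Rs Mx o x1 s n sh k x0 (ix k (y - sh)) - Rm Mx o x1 s n k x0 y) *ᵥ w) ≤ q) :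
    ∑ x0 ∈ iv n T, eQ Mx o x1 s n a lam W sh y w cp x0 ≤
      8 * (((lam : ℝ) + 1) * e) * r + 2 * q +
      e * ∑ x0 ∈ iv n T, cp * ((cq (a y) n 0 x0 - lam : ℕ) : ℝ) := by
  have h0 : ∀ x0 ∈ iv n T, eQ Mx o x1 s n a lam W sh y w cp x0 =
      eQ Mx o x1 s n a lam (fun k x0 _ => cW n T y W k x0) sh y w cp x0 := by
    intro x0 hx
    refine eQ_congr (fun k => ?_) sh w cp
    unfold cW
    rw [if_pos (mem_iv.1 hx)]
  rw [sum_congr rfl h0]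
  unfold eQ eR
  rw [sum_add_distrib, sum_add_distrib, ← mul_sum, ← mul_sum, ← mul_sum,
    sum_comm (s := iv n T) (t := range (n + 1))]
  have h1 := sum_mR (Mx := Mx) (o := o) (x1 := x1) (s := s) (T := T) (e := ((lam : ℝ) + 1) * e)
    (by positivity) (W := fun k x => up (a y) n lam (cW n T y W) k x)
    (fun k hk j => sum_up (cW_nonneg hW0) he (cW_sum he hW) hk j) y w
  have h2 := sum_tl (a := a y) (lam := lam) (cW_sum he hW) T
  have h3 := mul_le_mul_of_nonneg_left h2 hcp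
  have h4 := mul_le_mul_of_nonneg_left hR (by positivity : 0 ≤ 4 * (((lam : ℝ) + 1) * e))
  have h5 : e * ∑ x0 ∈ iv n T, cp * ((cq (a y) n 0 x0 - lam : ℕ) : ℝ) =
      cp * (e * ∑ x0 ∈ iv n T, ((cq (a y) n 0 x0 - lam : ℕ) : ℝ)) := by
    rw [← mul_sum]
    ring
  rw [h5]
  linarith

/-- **The sum over the root**, one point `y`, letters of `H876.S1y`. -/
theorem sum_eQ_pt (hs1 : ∀ k a b, |s k a b| ≤ 1) (ho : o = 1 ∨ o = -1) {w : ι → ℝ} {q r : ℝ}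
    (hX : ∑ i ∈ range n, En Mx n T x1 M3 (i + 1) w ≤ q) {y : ℤ}
    (hR : ∑ x0 ∈ iv n T, nsq (Rm Mx o x1 s n 0 x0 y *ᵥ w) ≤ r) {e : ℝ} (he : 0 ≤ e)
    (hW0 : ∀ k x0, 0 ≤ W k x0 y)
    (hW : ∀ k ≤ n, ∀ j ∈ iv (n - k) T, ∑ x0 ∈ iv k j, W k x0 y ≤ e * 2 ^ k)
    {θ : ℕ → ℤ → ℝ} (hθ0 : ∀ k m, 0 ≤ θ k m)
    (hθ : ∀ k m a, nsq (Mx k m *ᵥ a) ≤ θ k m * nsq a) (al : ℕ → ℤ → Prop) (L : ℕ) (sh : ℤ)
    (hy : y ∈ iv n M3) (hup : ∀ k < n, al k y → al (k + 1) y)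
    (hal : ∀ k ≤ n, ¬ al k y → ∀ x0 ∈ iv n T, W k x0 y = 0) {cp : ℝ} (hcp : 0 ≤ cp) :
    ∑ x0 ∈ iv n T, eQ Mx o x1 s n a lam W sh y w cp x0 ≤
      ((lam : ℝ) + 1) * e * (8 * r + 4 * ((24 + 8 * (L : ℝ) ^ 3) * q +
        farA n L (ep θ n T x1 M3) al y * nsq w)) +
      e * ∑ x0 ∈ iv n T, cp * ((cq (a y) n 0 x0 - lam : ℕ) : ℝ) := by
  have h1 := S1y (T := T) hs1 ho hX (W := fun k x0 => up (a y) n lam (cW n T y W) k x0)
    (e := ((lam : ℝ) + 1) * e) (by positivity)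
    (fun k x0 => up_nonneg (cW_nonneg hW0) k x0)
    (fun k hk j => sum_up (cW_nonneg hW0) he (cW_sum he hW) hk j) hθ0 hθ al L sh hy
    (fun k hk hn x0 => up_zero fun l hl => by
      unfold cW
      split_ifs with hx
      · exact hal l (hl.trans hk) (fun h => hn (al_up hup hl hk h)) x0 (mem_iv.2 hx)
      · rfl)
  refine (sum_eQ1 (a := a) (lam := lam) he hW0 hW sh w hcp hR h1).trans (le_of_eq ?_)
  ring

end

end Vale.Agent.P141.H224
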