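import Vale.Agent.P141.H224.SupR
import Vale.Agent.P141.H327.PackN

/-!
# P141, line (A): weights which may jump on affected cells

`a l j` : the cell `j` of scale `l` is affected, `W k x` weights with `W k x ≤ W (k + 1) x` when the
cell of scale `k` of `x` is not affected.

* `cq a n k x` : the number of affected cells of scales in `[k, n)` which contain `x`;
* `up` : an envelope, monotone in `k`, above `W k x` when `cq ≤ lam`, cell sums `(lam + 1) e 2 ^ k`;
* `tl` : above `W k x` for every `k` with `lam < cq`, sum at most `e ∑ (cq - lam)`;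
* `le_supQ`, `sum_supQ` : all scales at one `x₀` for the moving slot on a shifted grid.
-/

namespace Vale.Agent.P141.H224

open Finset Matrix
open Vale.Agent.P141.PL (iv ix hs mem_iv ix_ix card_iv)
open Vale.Agent.P141.H43 (nsq nsq_nonneg)
open Vale.Agent.P141.H841 (Lm Rm Rs)
open Vale.Agent.P141.H876 (En wn S1)

noncomputable section

open scoped Classical

/-- the number of affected cells of scales in `[k, n)` which contain `x` -/
def cq (a : ℕ → ℤ → Prop) (n k : ℕ) (x : ℤ) : ℕ := ((Ico k n).filter fun l => a l (ix l x)).card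

variable {a : ℕ → ℤ → Prop} {n lam : ℕ} {W : ℕ → ℤ → ℝ} {e : ℝ}

theorem cq_self (a : ℕ → ℤ → Prop) (n : ℕ) (x : ℤ) : cq a n n x = 0 := by
  unfold cq
  simp

theorem cq_succ {k : ℕ} (hk : k < n) (x : ℤ) :
    cq a n k x = (if a k (ix k x) then 1 else 0) + cq a n (k + 1) x := by
  unfold cq
  rw [← Finset.insert_Ico_add_one_left_eq_Ico hk, filter_insert]
  split_ifs with h
  · rw [card_insert_of_notMem, add_comm]
    rw [mem_filter, mem_Ico]
    omega
  · rw [zero_add]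

theorem cq_yes {k : ℕ} (hk : k < n) {x : ℤ} (h : a k (ix k x)) :
    cq a n k x = 1 + cq a n (k + 1) x := by
  rw [cq_succ hk, if_pos h]

theorem cq_no {k : ℕ} (hk : k < n) {x : ℤ} (h : ¬ a k (ix k x)) :
    cq a n k x = cq a n (k + 1) x := by
  rw [cq_succ hk, if_neg h, zero_add]

theorem cq_ix {k : ℕ} {x y : ℤ} (h : ix k x = ix k y) : cq a n k x = cq a n k y := by
  unfold cq
  congr 1
  refine filter_congr fun l hl => ?_
  rw [mem_Ico] at hl
  rw [ix_mono hl.1 h]

/-- letters with the index of the cell -/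
theorem cq_cell {k : ℕ} (x : ℤ) :
    ((Ico k n).filter fun l => a l (ix (l - k) (ix k x))).card = cq a n k x := by
  unfold cq
  congr 1
  refine filter_congr fun l hl => ?_
  rw [mem_Ico] at hl
  rw [ix_ix, Nat.add_sub_cancel' hl.1]

/-! ### The envelope -/

/-- the part of the affected times below `k` -/
def lo (a : ℕ → ℤ → Prop) (n lam : ℕ) (W : ℕ → ℤ → ℝ) (k : ℕ) (x : ℤ) : ℝ :=
  ∑ l ∈ range k, if a l (ix l x) ∧ cq a n l x ≤ lam then W l x else 0

/-- the envelope -/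
def up (a : ℕ → ℤ → Prop) (n lam : ℕ) (W : ℕ → ℤ → ℝ) (k : ℕ) (x : ℤ) : ℝ :=
  (if cq a n k x ≤ lam then W k x else 0) + lo a n lam W k x

theorem lo_nonneg (hW0 : ∀ k x, 0 ≤ W k x) (k : ℕ) (x : ℤ) : 0 ≤ lo a n lam W k x := by
  unfold lo
  refine sum_nonneg fun l _ => ?_
  split_ifs
  · exact hW0 l x
  · exact le_rfl

theorem up_nonneg (hW0 : ∀ k x, 0 ≤ W k x) (k : ℕ) (x : ℤ) : 0 ≤ up a n lam W k x := by
  unfold up
  refine add_nonneg ?_ (lo_nonneg hW0 k x)
  split_ifs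
  · exact hW0 k x
  · exact le_rfl

/-- the weight is below the envelope in the first `lam` generations -/
theorem le_up (hW0 : ∀ k x, 0 ≤ W k x) {k : ℕ} {x : ℤ} (h : cq a n k x ≤ lam) :
    W k x ≤ up a n lam W k x := by
  unfold up
  rw [if_pos h]
  linarith [lo_nonneg (a := a) (n := n) (lam := lam) hW0 k x]

/-- the envelope is monotone -/
theorem up_mono (hW0 : ∀ k x, 0 ≤ W k x)
    (hWm : ∀ k < n, ∀ x, ¬ a k (ix k x) → W k x ≤ W (k + 1) x) {k : ℕ} (hk : k < n) (x : ℤ) :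
    up a n lam W k x ≤ up a n lam W (k + 1) x := by
  unfold up lo
  rw [sum_range_succ]
  by_cases h : a k (ix k x)
  · have h0 : 0 ≤ if cq a n (k + 1) x ≤ lam then W (k + 1) x else 0 := by
      split_ifs
      · exact hW0 _ x
      · exact le_rfl
    simp only [h, true_and]
    linarith
  · rw [cq_no hk h]
    have h1 := hWm k hk x h
    simp only [h, false_and, if_false, add_zero]
    gcongr
    split_ifs
    · exact h1
    · exact le_rfl

theorem sum_lo (he : 0 ≤ e)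
    (hW : ∀ k ≤ n, ∀ j, ∑ x ∈ iv k j, W k x ≤ e * 2 ^ k) (k : ℕ) (hk : k ≤ n) :
    ∀ j, ∑ x ∈ iv k j, lo a n lam W k x ≤ e * 2 ^ k * ((lam - cq a n k (2 ^ k * j) : ℕ) : ℝ) := by
  induction k with
  | zero =>
    intro j
    have : ∑ x ∈ iv 0 j, lo a n lam W 0 x = 0 := by
      refine sum_eq_zero fun x _ => ?_
      unfold lo
      simp
    rw [this]
    positivity
  | succ k ih =>
    intro j
    have e0 : k + 1 - k = 1 := by omega
    have h1 := H922.iv_iv (Nat.le_succ k) j (fun x => lo a n lam W (k + 1) x)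
    simp only [Nat.succ_eq_add_one, e0] at h1
    rw [← h1]
    have h2 : ∀ c ∈ iv 1 j, ∑ x ∈ iv k c, lo a n lam W (k + 1) x ≤
        e * 2 ^ k * ((lam - cq a n (k + 1) (2 ^ (k + 1) * j) : ℕ) : ℝ) := by
      intro c hc
      have hc1 : ix (k + 1) (2 ^ k * c) = ix (k + 1) (2 ^ (k + 1) * j) := by
        rw [← ix_ix k 1 (2 ^ k * c), ix_pow_mul, ix_pow_mul, mem_iv.1 hc]
      have hcc : ∀ x ∈ iv k c, ix k x = ix k (2 ^ k * c) := by
        intro x hx
        rw [mem_iv.1 hx, ix_pow_mul]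
      have e1 : ∑ x ∈ iv k c, lo a n lam W (k + 1) x = ∑ x ∈ iv k c, lo a n lam W k x +
          ∑ x ∈ iv k c, if a k (ix k x) ∧ cq a n k x ≤ lam then W k x else 0 := by
        rw [← sum_add_distrib]
        refine sum_congr rfl fun x _ => ?_
        unfold lo
        rw [sum_range_succ]
      have e2 : ∑ x ∈ iv k c, (if a k (ix k x) ∧ cq a n k x ≤ lam then W k x else 0) =
          if a k (ix k (2 ^ k * c)) ∧ cq a n k (2 ^ k * c) ≤ lam then ∑ x ∈ iv k c, W k x
            else 0 := by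
        split_ifs with hh
        · refine sum_congr rfl fun x hx => ?_
          rw [hcc x hx, cq_ix (hcc x hx), if_pos hh]
        · refine sum_eq_zero fun x hx => ?_
          rw [hcc x hx, cq_ix (hcc x hx), if_neg hh]
      have h3 := ih (by omega) c
      have h4 := hW k (by omega) c
      have hP : 0 ≤ e * 2 ^ k := by positivity
      rw [e1, e2, ← cq_ix hc1]
      by_cases ha : a k (ix k (2 ^ k * c))
      · have h5 := cq_yes (n := n) (by omega) ha
        by_cases hl : cq a n k (2 ^ k * c) ≤ lam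
        · rw [if_pos ⟨ha, hl⟩]
          have h6 : lam - cq a n (k + 1) (2 ^ k * c) = (lam - cq a n k (2 ^ k * c)) + 1 := by
            omega
          rw [h6]
          push_cast
          linarith
        · rw [if_neg (fun hh => hl hh.2), add_zero]
          refine h3.trans (mul_le_mul_of_nonneg_left ?_ hP)
          exact_mod_cast (by omega : lam - cq a n k (2 ^ k * c) ≤
            lam - cq a n (k + 1) (2 ^ k * c))
      · rw [if_neg (fun hh => ha hh.1), add_zero, ← cq_no (n := n) (by omega) ha]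
        exact h3
    refine (sum_le_sum h2).trans ?_
    rw [sum_const, card_iv, nsmul_eq_mul]
    refine le_of_eq ?_
    push_cast
    ring

/-- **Cell sums of the envelope.** -/
theorem sum_up (hW0 : ∀ k x, 0 ≤ W k x) (he : 0 ≤ e)
    (hW : ∀ k ≤ n, ∀ j, ∑ x ∈ iv k j, W k x ≤ e * 2 ^ k) {k : ℕ} (hk : k ≤ n) (j : ℤ) :
    ∑ x ∈ iv k j, up a n lam W k x ≤ ((lam : ℝ) + 1) * e * 2 ^ k := by
  unfold up
  rw [sum_add_distrib]
  have h1 : ∑ x ∈ iv k j, (if cq a n k x ≤ lam then W k x else 0) ≤ e * 2 ^ k := by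
    refine le_trans (sum_le_sum fun x _ => ?_) (hW k hk j)
    split_ifs
    · exact le_rfl
    · exact hW0 k x
  have h2 := sum_lo (a := a) (lam := lam) he hW k hk j
  have h3 : ((lam - cq a n k (2 ^ k * j) : ℕ) : ℝ) ≤ lam := by
    exact_mod_cast Nat.sub_le _ _
  have hP : 0 ≤ e * 2 ^ k := by positivity
  have h4 := mul_le_mul_of_nonneg_left h3 hP
  linarith

/-! ### The tail -/

/-- the affected times of the generations after `lam` -/
def tl (a : ℕ → ℤ → Prop) (n lam : ℕ) (W : ℕ → ℤ → ℝ) (x : ℤ) : ℝ :=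
  ∑ l ∈ range n, if a l (ix l x) ∧ lam < cq a n l x then W l x else 0

theorem tl_nonneg (hW0 : ∀ k x, 0 ≤ W k x) (x : ℤ) : 0 ≤ tl a n lam W x := by
  unfold tl
  refine sum_nonneg fun l _ => ?_
  split_ifs
  · exact hW0 l x
  · exact le_rfl

theorem le_tlk (hW0 : ∀ k x, 0 ≤ W k x)
    (hWm : ∀ k < n, ∀ x, ¬ a k (ix k x) → W k x ≤ W (k + 1) x) (x : ℤ) {k : ℕ} (hk : k ≤ n)
    (h : lam < cq a n k x) :
    W k x ≤ ∑ l ∈ Ico k n, if a l (ix l x) ∧ lam < cq a n l x then W l x else 0 := by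
  have h0 : ∀ l, 0 ≤ if a l (ix l x) ∧ lam < cq a n l x then W l x else 0 := fun l => by
    split_ifs
    · exact hW0 l x
    · exact le_rfl
  obtain ⟨d, rfl⟩ := Nat.exists_eq_add_of_le hk
  induction d generalizing k with
  | zero =>
    exfalso
    rw [add_zero, cq_self] at h
    omega
  | succ d ih =>
    by_cases ha : a k (ix k x)
    · refine le_trans ?_ (single_le_sum (f := fun l => if a l (ix l x) ∧
        lam < cq a (k + (d + 1)) l x then W l x else 0) (fun l _ => h0 l)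
        (mem_Ico.2 ⟨le_rfl, by omega⟩))
      simp only [ha, h, and_self, if_true, le_refl]
    · have e1 : k + 1 + d = k + (d + 1) := by ring
      have h1 := cq_no (n := k + (d + 1)) (by omega) ha
      rw [h1] at h
      have h2 := ih (k := k + 1) (by rw [e1]; exact hWm) (by omega) (by rw [e1]; exact h)
        (by rw [e1]; exact h0)
      rw [e1] at h2
      refine (hWm k (by omega) x ha).trans (h2.trans ?_)
      exact sum_le_sum_of_subset_of_nonneg (Ico_subset_Ico_left (by omega)) fun l _ _ => h0 l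

/-- every scale after the generation `lam` -/
theorem le_tl (hW0 : ∀ k x, 0 ≤ W k x)
    (hWm : ∀ k < n, ∀ x, ¬ a k (ix k x) → W k x ≤ W (k + 1) x) {x : ℤ} {k : ℕ} (hk : k ≤ n)
    (h : lam < cq a n k x) : W k x ≤ tl a n lam W x := by
  refine (le_tlk hW0 hWm x hk h).trans ?_
  unfold tl
  refine sum_le_sum_of_subset_of_nonneg (fun l hl => ?_) fun l _ _ => ?_
  · rw [mem_Ico] at hl
    exact mem_range.2 hl.2
  · split_ifs
    · exact hW0 l x
    · exact le_rfl

/-- the number of affected times after the generation `lam` -/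
theorem card_tl (x : ℤ) {k : ℕ} (hk : k ≤ n) :
    ∑ l ∈ Ico k n, (if a l (ix l x) ∧ lam < cq a n l x then (1 : ℝ) else 0) =
      ((cq a n k x - lam : ℕ) : ℝ) := by
  obtain ⟨d, rfl⟩ := Nat.exists_eq_add_of_le hk
  induction d generalizing k with
  | zero => simp [cq_self]
  | succ d ih =>
    have e1 : k + 1 + d = k + (d + 1) := by ring
    have h2 := ih (k := k + 1) (by omega)
    rw [e1] at h2
    rw [sum_eq_sum_Ico_succ_bot (by omega), h2]
    by_cases ha : a k (ix k x)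
    · have h1 := cq_yes (n := k + (d + 1)) (by omega) ha
      rw [h1]
      by_cases hl : lam < 1 + cq a (k + (d + 1)) (k + 1) x
      · rw [if_pos ⟨ha, hl⟩]
        have : 1 + cq a (k + (d + 1)) (k + 1) x - lam =
          (cq a (k + (d + 1)) (k + 1) x - lam) + 1 := by omega
        rw [this]
        push_cast
        ring
      · rw [if_neg (fun hh => hl hh.2), zero_add]
        have : 1 + cq a (k + (d + 1)) (k + 1) x - lam =
          cq a (k + (d + 1)) (k + 1) x - lam := by omega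
        rw [this]
    · rw [if_neg (fun hh => ha hh.1), zero_add, cq_no (n := k + (d + 1)) (by omega) ha]

/-- **The sum of the tail.** -/
theorem sum_tl (hW : ∀ k ≤ n, ∀ j, ∑ x ∈ iv k j, W k x ≤ e * 2 ^ k) (T : ℤ) :
    ∑ x ∈ iv n T, tl a n lam W x ≤ e * ∑ x ∈ iv n T, ((cq a n 0 x - lam : ℕ) : ℝ) := by
  unfold tl
  rw [sum_comm]
  have h1 : ∀ l ∈ range n, ∑ x ∈ iv n T, (if a l (ix l x) ∧ lam < cq a n l x then W l x else 0) ≤
      e * ∑ x ∈ iv n T, (if a l (ix l x) ∧ lam < cq a n l x then (1 : ℝ) else 0) := by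
    intro l hl
    have hln : l ≤ n := (mem_range.1 hl).le
    have h := sum_W_cell hln (hW l hln) T
      (D := fun x => if a l (ix l x) ∧ lam < cq a n l x then (1 : ℝ) else 0)
      (fun x => by positivity) (fun x y hxy => by simp only [hxy, cq_ix hxy])
    refine le_trans (le_of_eq (sum_congr rfl fun x _ => ?_)) h
    simp only [mul_ite, mul_one, mul_zero]
  refine (sum_le_sum h1).trans (le_of_eq ?_)
  rw [← mul_sum, sum_comm]
  congr 1
  refine sum_congr rfl fun x _ => ?_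
  have h := card_tl (a := a) (n := n) (lam := lam) x (Nat.zero_le n)
  rwa [← range_eq_Ico] at h

/-! ### The tail and the packing of the affected squares -/

section

open Vale.Agent.P141.H958 (Aff mem_Aff sum_Aff PackQ)
open Vale.Agent.P141.H327 (NQ Nn sub sub_sq sq_mem Sq_geo)

/-- the count at a point is the number of affected squares above the square of the point -/
theorem cq_NQ {R S : ℤ} {Q : ℕ → ℤ → ℤ → ℤ → Prop} {x z : ℤ} (hx : x ∈ iv n R) (hz : z ∈ iv n S)
    (x0 : ℤ) (k : ℕ) : NQ n R S (fun l => Q l (ix l x0)) (H327.sq k x z) =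
      cq (fun l j => Q l j (ix l x) (ix l z)) n k x0 := by
  unfold NQ Nn H327.up cq
  have e1 : ((Aff n R S fun l => Q l (ix l x0)).filter fun b => sub (H327.sq k x z) b) =
      ((Ico k n).filter fun l => Q l (ix l x0) (ix l x) (ix l z)).image fun l => H327.sq l x z := by
    ext b
    rw [mem_filter, mem_Aff, mem_image]
    constructor
    · rintro ⟨⟨h1, _, _, h4⟩, h5, h6, h7⟩
      simp only [H327.sq] at h5 h6 h7
      rw [ix_ix, Nat.add_sub_cancel' h5] at h6 h7
      refine ⟨b.1, mem_filter.2 ⟨mem_Ico.2 ⟨h5, h1⟩, ?_⟩, Prod.ext rfl (Prod.ext h6 h7)⟩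
      rw [h6, h7]
      exact h4
    · rintro ⟨l, hl, rfl⟩
      rw [mem_filter, mem_Ico] at hl
      exact ⟨mem_Aff.1 (sq_mem (Q := fun l => Q l (ix l x0)) hx hz hl.1.2 hl.2), sub_sq hl.1.1 x z⟩
  rw [e1, card_image_of_injective]
  intro l l' h
  exact congrArg Prod.fst h

/-- the excess of the count, with a mass -/
theorem sum_cq {R S x0 : ℤ} {Q : ℕ → ℤ → ℤ → ℤ → Prop} {B κ : ℝ} (hB : 1 ≤ B) (hκ : 0 ≤ κ)
    (h : PackQ n R S (fun l => Q l (ix l x0)) B) {c : ℤ → ℤ → ℝ}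
    (hc : ∀ k < n, ∀ i j, Q k (ix k x0) i j → ∑ x ∈ iv k i, ∑ z ∈ iv k j, c x z ≤ κ * 4 ^ k)
    (lam : ℕ) : ∑ x ∈ iv n R, ∑ z ∈ iv n S,
      c x z * ((cq (fun l j => Q l j (ix l x) (ix l z)) n 0 x0 - lam : ℕ) : ℝ) ≤
        κ * ((1 - 1 / B) ^ lam * (B * 4 ^ n)) := by
  have h1 : ∀ x ∈ iv n R, ∀ z ∈ iv n S,
      c x z * ((cq (fun l j => Q l j (ix l x) (ix l z)) n 0 x0 - lam : ℕ) : ℝ) =
        ∑ l ∈ range n, if Q l (ix l x0) (ix l x) (ix l z) ∧
          lam < NQ n R S (fun l => Q l (ix l x0)) (H327.sq l x z) then c x z else 0 := by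
    intro x hx z hz
    rw [← card_tl x0 (Nat.zero_le n), mul_sum, ← range_eq_Ico]
    refine sum_congr rfl fun l _ => ?_
    rw [cq_NQ hx hz, mul_ite, mul_one, mul_zero]
  have h2 : ∑ x ∈ iv n R, ∑ z ∈ iv n S,
      c x z * ((cq (fun l j => Q l j (ix l x) (ix l z)) n 0 x0 - lam : ℕ) : ℝ) =
        ∑ l ∈ range n, ∑ x ∈ iv n R, ∑ z ∈ iv n S, if Q l (ix l x0) (ix l x) (ix l z) ∧
          lam < NQ n R S (fun l => Q l (ix l x0)) (H327.sq l x z) then c x z else 0 := by
    rw [sum_congr rfl fun x hx => sum_congr rfl fun z hz => h1 x hx z hz]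
    rw [sum_comm (s := range n)]
    refine sum_congr rfl fun x _ => ?_
    rw [sum_comm]
  rw [h2]
  have h3 : ∀ l ∈ range n, (∑ x ∈ iv n R, ∑ z ∈ iv n S, if Q l (ix l x0) (ix l x) (ix l z) ∧
          lam < NQ n R S (fun l => Q l (ix l x0)) (H327.sq l x z) then c x z else 0) ≤
      ∑ j ∈ iv (n - l) S, ∑ i ∈ iv (n - l) R, if Q l (ix l x0) i j then
        (if lam < NQ n R S (fun l => Q l (ix l x0)) (l, i, j) then κ * (4 : ℝ) ^ l else 0)
          else 0 := by
    intro l hl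
    have hln : l ≤ n := (mem_range.1 hl).le
    rw [← H922.iv_iv hln R]
    rw [sum_comm (s := iv (n - l) S)]
    refine sum_le_sum fun i _ => ?_
    have e1 : ∀ x ∈ iv l i, (∑ z ∈ iv n S, if Q l (ix l x0) (ix l x) (ix l z) ∧
          lam < NQ n R S (fun l => Q l (ix l x0)) (H327.sq l x z) then c x z else 0) =
        ∑ j ∈ iv (n - l) S, ∑ z ∈ iv l j, if Q l (ix l x0) i j ∧
          lam < NQ n R S (fun l => Q l (ix l x0)) (l, i, j) then c x z else 0 := by
      intro x hx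
      rw [← H922.iv_iv hln S]
      refine sum_congr rfl fun j _ => sum_congr rfl fun z hz => ?_
      unfold H327.sq
      rw [mem_iv.1 hx, mem_iv.1 hz]
    rw [sum_congr rfl e1, sum_comm]
    refine sum_le_sum fun j _ => ?_
    by_cases hQ : Q l (ix l x0) i j
    · by_cases hN : lam < NQ n R S (fun l => Q l (ix l x0)) (l, i, j)
      · simp only [hQ, hN, and_self, if_true]
        exact hc l (mem_range.1 hl) i j hQ
      · simp only [hN, and_false, if_false, sum_const_zero, ite_self, le_refl]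
    · simp only [hQ, false_and, if_false, sum_const_zero, le_refl]
  refine (sum_le_sum h3).trans ?_
  rw [← sum_Aff n R S (fun l => Q l (ix l x0)) (fun i =>
    if lam < NQ n R S (fun l => Q l (ix l x0)) i then κ * (4 : ℝ) ^ i.1 else 0), ← sum_filter,
    ← mul_sum]
  exact mul_le_mul_of_nonneg_left (Sq_geo hB h lam) hκ

end

/-! ### The moving slot -/

section

variable {ι : Type*} [Fintype ι]
variable {Mx : ℕ → ℤ → Matrix ι ι ℝ} {o x1 T M3 : ℤ} {s : ℕ → ℤ → ℤ → ℝ}

/-- **The number at `x₀`, `y`** for weights which jump on affected cells: `a y l j` says that the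
cell `j` of scale `l` is affected at the point `y`. -/
def eQ (Mx : ℕ → ℤ → Matrix ι ι ℝ) (o x1 : ℤ) (s : ℕ → ℤ → ℤ → ℝ) (n : ℕ)
    (a : ℤ → ℕ → ℤ → Prop) (lam : ℕ) (W : ℕ → ℤ → ℤ → ℝ) (sh y : ℤ) (w : ι → ℝ) (cp : ℝ)
    (x0 : ℤ) : ℝ :=
  eR Mx o x1 s n (fun k x y => up (a y) n lam (fun k x => W k x y) k x) sh y w x0 +
    cp * tl (a y) n lam (fun k x => W k x y) x0

/-- **Every scale.** -/
theorem le_eQ {a : ℤ → ℕ → ℤ → Prop} {W : ℕ → ℤ → ℤ → ℝ} (hW0 : ∀ k x0 y, 0 ≤ W k x0 y)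
    (hWm : ∀ k < n, ∀ x y, ¬ a y k (ix k x) → W k x y ≤ W (k + 1) x y) (sh : ℤ) {k : ℕ}
    (hk : k ≤ n) (x0 y : ℤ) (w : ι → ℝ) {cp : ℝ} (hcp0 : 0 ≤ cp)
    (hcp : W k x0 y * nsq (Rs Mx o x1 s n sh k x0 (ix k (y - sh)) *ᵥ w) ≤ cp * W k x0 y) :
    W k x0 y * nsq (Rs Mx o x1 s n sh k x0 (ix k (y - sh)) *ᵥ w) ≤
      eQ Mx o x1 s n a lam W sh y w cp x0 := by
  unfold eQ
  by_cases h : cq (a y) n k x0 ≤ lam
  · have h1 := le_up (W := fun k x => W k x y) (fun k x => hW0 k x y) h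
    have h2 := le_eR (Mx := Mx) (o := o) (x1 := x1) (s := s)
      (W := fun k x y => up (a y) n lam (fun k x => W k x y) k x)
      (fun k x y => up_nonneg (fun k x => hW0 k x y) k x)
      (fun k hk x y => up_mono (fun k x => hW0 k x y) (fun k hk x => hWm k hk x y) hk x)
      sh hk x0 y w
    have h3 : 0 ≤ cp * tl (a y) n lam (fun k x => W k x y) x0 :=
      mul_nonneg hcp0 (tl_nonneg (fun k x => hW0 k x y) x0)
    have h4 := mul_le_mul_of_nonneg_right h1
      (nsq_nonneg (Rs Mx o x1 s n sh k x0 (ix k (y - sh)) *ᵥ w))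
    linarith
  · push Not at h
    have h1 := le_tl (W := fun k x => W k x y) (fun k x => hW0 k x y)
      (fun k hk x => hWm k hk x y) hk h
    have h2 := eR_nonneg (Mx := Mx) (o := o) (x1 := x1) (s := s) (n := n)
      (W := fun k x y => up (a y) n lam (fun k x => W k x y) k x)
      (fun k x y => up_nonneg (fun k x => hW0 k x y) k x) sh y w x0
    have h3 := mul_le_mul_of_nonneg_left h1 hcp0
    linarith

/-- **All scales at one `x₀`**, letters of `S1`. -/
theorem sum_eQ (hs1 : ∀ k a b, |s k a b| ≤ 1) (ho : o = 1 ∨ o = -1) {Q : (ι → ℝ) → ℝ}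
    (hX : ∀ a, ∑ i ∈ range n, En Mx n T x1 M3 (i + 1) a ≤ 2 ^ n * Q a)
    (hR : ∀ p a, ∑ x0 ∈ iv n T, nsq (Rm Mx o x1 s n 0 x0 p *ᵥ a) ≤ 2 ^ n * Q a)
    {a : ℤ → ℕ → ℤ → Prop} {W : ℕ → ℤ → ℤ → ℝ} (he : 0 ≤ e) (hW0 : ∀ k x0 y, 0 ≤ W k x0 y)
    (hW : ∀ k ≤ n, ∀ j y, ∑ x0 ∈ iv k j, W k x0 y ≤ e * 2 ^ k)
    {θ : ℕ → ℤ → ℝ} (hθ0 : ∀ k m, 0 ≤ θ k m)
    (hθ : ∀ k m a, nsq (Mx k m *ᵥ a) ≤ θ k m * nsq a) {Θ : ℝ}
    (hΘ : ∑ i ∈ range n, 2 ^ (i + 1) * ∑ R ∈ wn n T x1 M3, ∑ m ∈ iv (n - (i + 1)) R, θ (i + 1) m ≤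
      Θ * 2 ^ n) {v : ℤ → ι → ℝ} {V : ℝ} (hV : ∀ y ∈ iv n M3, nsq (v y) ≤ V) (L : ℕ) (sh : ℤ)
    {cp : ℤ → ℝ} (hcp : ∀ y, 0 ≤ cp y) :
    ∑ y ∈ iv n M3, ∑ x0 ∈ iv n T, eQ Mx o x1 s n a lam W sh y (v y) (cp y) x0 ≤
      ((lam : ℝ) + 1) * e * ((104 + 32 * (L : ℝ) ^ 3) * (2 ^ n * ∑ y ∈ iv n M3, Q (v y)) +
        128 * (((L : ℝ) + 2) ^ 2 + 2) / 2 ^ L * (V * Θ * 4 ^ n)) +
      e * ∑ y ∈ iv n M3, ∑ x0 ∈ iv n T, cp y * ((cq (a y) n 0 x0 - lam : ℕ) : ℝ) := by
  unfold eQ
  simp only [sum_add_distrib]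
  have h1 := sum_eR_Q (M3 := M3) hs1 ho hX hR
    (W := fun k x y => up (a y) n lam (fun k x => W k x y) k x)
    (e := ((lam : ℝ) + 1) * e) (by positivity)
    (fun k x y => up_nonneg (fun k x => hW0 k x y) k x)
    (fun k hk j y => sum_up (fun k x => hW0 k x y) he (fun k hk j => hW k hk j y) hk j)
    hθ0 hθ hΘ hV L sh
  refine add_le_add h1 ?_
  rw [mul_sum]
  refine sum_le_sum fun y _ => ?_
  rw [← mul_sum, ← mul_sum]
  have h2 := sum_tl (a := a y) (lam := lam) (W := fun k x => W k x y)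
    (fun k hk j => hW k hk j y) T
  have h3 := mul_le_mul_of_nonneg_left h2 (hcp y)
  linarith

end

end

end Vale.Agent.P141.H224
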